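import Mathlib

open Complex Metric Set Filter Topology MeasureTheory

namespace Vale.Agent.Lib.P142

/-- local integrability of the Cauchy kernel at the origin -/
lemma integrableOn_inv_ball (R : ℝ) : IntegrableOn (fun y : ℂ => y⁻¹) (ball 0 R) := by
  have hfin : (1 : ℝ) < Module.finrank ℝ ℂ := by
    rw [Complex.finrank_real_complex]; norm_num
  have h1 : LocallyIntegrable (fun y : ℂ => y⁻¹) volume := by
    apply locallyIntegrable_of_norm_le_rpow (C := 1) (α := 1)
      (by rw [Complex.finrank_real_complex]; norm_num) hfin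
    · refine Eventually.of_forall fun x => ?_
      simp [Real.rpow_neg_one]
    · exact (measurable_inv).aestronglyMeasurable
  exact (h1.integrableOn_isCompact (isCompact_closedBall 0 R)).mono_set ball_subset_closedBall

lemma mp_sub (ζ : ℂ) : MeasurePreserving (fun w : ℂ => ζ - w) volume volume :=
  volume.measurePreserving_sub_left ζ

lemma me_sub (ζ : ℂ) : MeasurableEmbedding (fun w : ℂ => ζ - w) :=
  measurableEmbedding_subLeft ζ

lemma preimage_sub_ball (ζ : ℂ) (P : ℝ) : (fun w : ℂ => ζ - w) ⁻¹' (ball ζ P) = ball 0 P := by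
  ext w; simp [dist_eq_norm]

lemma integrableOn_inv_sub (ζ : ℂ) (P : ℝ) :
    IntegrableOn (fun w : ℂ => (ζ - w)⁻¹) (ball 0 P) := by
  have h2 : IntegrableOn (fun y : ℂ => y⁻¹) (ball ζ P) := by
    rcases le_or_gt P 0 with hP | hP
    · rw [ball_eq_empty.mpr hP]; exact integrableOn_empty
    · refine (integrableOn_inv_ball (‖ζ‖ + P)).mono_set ?_
      intro y hy
      simp only [mem_ball, dist_eq_norm, sub_zero] at hy ⊢
      calc ‖y‖ = ‖(y - ζ) + ζ‖ := by ring_nf
        _ ≤ ‖y - ζ‖ + ‖ζ‖ := norm_add_le _ _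
        _ < ‖ζ‖ + P := by linarith
  have := ((mp_sub ζ).integrableOn_comp_preimage (me_sub ζ)).2 h2
  rwa [preimage_sub_ball] at this

lemma setIntegral_norm_inv_sub_le (ζ : ℂ) {P R : ℝ} (hR : ‖ζ‖ + P ≤ R) :
    (∫ w in ball (0 : ℂ) P, ‖(ζ - w)⁻¹‖) ≤ ∫ y in ball (0 : ℂ) R, ‖y⁻¹‖ := by
  have h1 := (mp_sub ζ).setIntegral_preimage_emb (me_sub ζ) (fun y : ℂ => ‖y⁻¹‖) (ball ζ P)
  rw [preimage_sub_ball] at h1
  rw [h1]
  apply setIntegral_mono_set
  · exact (integrableOn_inv_ball R).norm
  · exact Eventually.of_forall fun x => norm_nonneg _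
  · refine Eventually.of_forall ?_
    intro y hy
    rcases le_or_gt P 0 with hP | hP
    · have : y ∈ ball ζ P := hy
      rw [ball_eq_empty.mpr hP] at this
      exact this.elim
    · have hy' : y ∈ ball ζ P := hy
      show y ∈ ball (0 : ℂ) R
      simp only [mem_ball, dist_eq_norm, sub_zero] at hy' ⊢
      calc ‖y‖ = ‖(y - ζ) + ζ‖ := by ring_nf
        _ ≤ ‖y - ζ‖ + ‖ζ‖ := norm_add_le _ _
        _ < R := by linarith

/-- Joint integrability of the Cauchy kernel along a continuous curve. -/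
lemma integrable_kernel {A B : ℝ → ℂ} (hA : Continuous A) (hB : Continuous B) (a b P : ℝ) :
    Integrable (Function.uncurry fun (θ : ℝ) (w : ℂ) => A θ * (B θ - w)⁻¹)
      ((volume.restrict (uIoc a b)).prod (volume.restrict (ball (0 : ℂ) P))) := by
  have hmeas : Measurable (Function.uncurry fun (θ : ℝ) (w : ℂ) => A θ * (B θ - w)⁻¹) := by
    have h1 : Measurable fun p : ℝ × ℂ => A p.1 := hA.measurable.comp measurable_fst
    have h2 : Measurable fun p : ℝ × ℂ => B p.1 := hB.measurable.comp measurable_fst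
    exact h1.mul ((h2.sub measurable_snd).inv)
  rw [integrable_prod_iff hmeas.aestronglyMeasurable]
  -- bounds on the compact interval
  obtain ⟨MA, hMA⟩ := (isCompact_uIcc (a := a) (b := b)).exists_bound_of_continuousOn hA.continuousOn
  obtain ⟨MB, hMB⟩ := (isCompact_uIcc (a := a) (b := b)).exists_bound_of_continuousOn hB.continuousOn
  set K := ∫ y in ball (0 : ℂ) (MB + P), ‖y⁻¹‖ with hK
  constructor
  · refine Eventually.of_forall fun θ => ?_
    exact (integrableOn_inv_sub (B θ) P).const_mul (A θ)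
  · have hm2 : AEStronglyMeasurable
        (fun θ => ∫ w, ‖A θ * (B θ - w)⁻¹‖ ∂(volume.restrict (ball (0 : ℂ) P)))
        (volume.restrict (uIoc a b)) :=
      (hmeas.aestronglyMeasurable.norm).integral_prod_right'
    have hconst : Integrable (fun _ : ℝ => MA * K) (volume.restrict (uIoc a b)) := by
      apply integrable_const_iff.2
      right
      exact ⟨by simp [uIoc]⟩
    refine Integrable.mono' hconst hm2 ?_
    filter_upwards [ae_restrict_mem measurableSet_uIoc] with θ hθ
    have hθ' : θ ∈ uIcc a b := uIoc_subset_uIcc hθ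
    have hA' := hMA θ hθ'
    have hB' := hMB θ hθ'
    have hMA0 : 0 ≤ MA := (norm_nonneg _).trans hA'
    have hK' : (∫ w in ball (0 : ℂ) P, ‖(B θ - w)⁻¹‖) ≤ K :=
      setIntegral_norm_inv_sub_le (B θ) (by linarith)
    have hnn : 0 ≤ ∫ w in ball (0 : ℂ) P, ‖(B θ - w)⁻¹‖ :=
      integral_nonneg fun _ => norm_nonneg _
    rw [Real.norm_of_nonneg (integral_nonneg fun _ => norm_nonneg _)]
    simp only [Function.uncurry, norm_mul]
    rw [integral_const_mul]
    exact mul_le_mul hA' hK' hnn hMA0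

/-- Mean over rotations of the Cauchy kernel, inside case. -/
lemma integral_rot_inside {ζ u : ℂ} (h : ‖u‖ < ‖ζ‖) :
    (∫ φ in (0 : ℝ)..(2 * Real.pi), (ζ - circleMap 0 1 φ * u)⁻¹) = 2 * Real.pi * ζ⁻¹ := by
  have hne : ∀ x ∈ closedBall (0 : ℂ) 1, ζ - x * u ≠ 0 := by
    intro x hx h0
    have hx' : ‖x‖ ≤ 1 := by simpa using hx
    have h1 : ζ = x * u := sub_eq_zero.mp h0
    have h2 : ‖ζ‖ ≤ ‖u‖ := by
      rw [h1, norm_mul]
      nlinarith [norm_nonneg u]
    linarith
  have hav := circleAverage_of_differentiable_on_off_countable (f := fun x : ℂ => (ζ - x * u)⁻¹)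
    (c := 0) (R := 1) (s := ∅) Set.countable_empty
    (by
      rw [abs_one]
      apply ContinuousOn.inv₀ (by fun_prop)
      exact hne)
    (by
      rw [abs_one]
      intro z hz
      apply DifferentiableAt.inv (by fun_prop)
      exact hne z (ball_subset_closedBall hz.1))
  rw [Real.circleAverage_def] at hav
  simp only [zero_mul, sub_zero] at hav
  have hpi : (2 * Real.pi : ℝ) ≠ 0 := by
    simp [Real.pi_ne_zero]
  calc (∫ φ in (0 : ℝ)..(2 * Real.pi), (ζ - circleMap 0 1 φ * u)⁻¹)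
      = (2 * Real.pi : ℝ) • ((2 * Real.pi : ℝ)⁻¹ •
          ∫ φ in (0 : ℝ)..(2 * Real.pi), (ζ - circleMap 0 1 φ * u)⁻¹) := by
        rw [smul_smul, mul_inv_cancel₀ hpi, one_smul]
    _ = 2 * Real.pi * ζ⁻¹ := by
        rw [hav, Complex.real_smul]; push_cast; ring

/-- Mean over rotations of the Cauchy kernel, outside case. -/
lemma integral_rot_outside {ζ u : ℂ} (h : ‖ζ‖ < ‖u‖) :
    (∫ φ in (0 : ℝ)..(2 * Real.pi), (ζ - circleMap 0 1 φ * u)⁻¹) = 0 := by
  have hu : u ≠ 0 := by
    intro h0; rw [h0, norm_zero] at h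
    exact absurd (norm_nonneg ζ) (not_le.mpr h)
  set T : ℂ → ℂ := fun y => -(y * (u - ζ * y)⁻¹) with hT
  have hne : ∀ y ∈ closedBall (0 : ℂ) 1, u - ζ * y ≠ 0 := by
    intro x hx h0
    have hx' : ‖x‖ ≤ 1 := by simpa using hx
    have h1 : u = ζ * x := sub_eq_zero.mp h0
    have h2 : ‖u‖ ≤ ‖ζ‖ := by
      rw [h1, norm_mul]
      nlinarith [norm_nonneg ζ]
    linarith
  have hav := circleAverage_of_differentiable_on_off_countable (f := T)
    (c := 0) (R := 1) (s := ∅) Set.countable_empty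
    (by
      rw [abs_one]
      apply ContinuousOn.neg
      apply ContinuousOn.mul continuousOn_id
      apply ContinuousOn.inv₀ (by fun_prop)
      exact hne)
    (by
      rw [abs_one]
      intro z hz
      apply DifferentiableAt.neg
      apply DifferentiableAt.mul differentiableAt_id
      apply DifferentiableAt.inv (by fun_prop)
      exact hne z (ball_subset_closedBall hz.1))
  have hT0 : T 0 = 0 := by simp [hT]
  rw [hT0] at hav
  have hinv := Real.circleAverage_zero_one_congr_inv (f := T)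
  rw [hav] at hinv
  rw [Real.circleAverage_def] at hinv
  have hpi : ((2 * Real.pi : ℝ)⁻¹) ≠ 0 := by
    simp [Real.pi_ne_zero]
  have hzero : (∫ θ in (0 : ℝ)..(2 * Real.pi), T (circleMap 0 1 θ)⁻¹) = 0 :=
    (smul_eq_zero.mp hinv).resolve_left hpi
  refine Eq.trans ?_ hzero
  apply intervalIntegral.integral_congr
  intro φ _
  simp only [hT]
  have hx : circleMap 0 1 φ ≠ 0 := by
    simp
  set x := circleMap 0 1 φ with hxdef
  have hxnorm : ‖x‖ = 1 := by simp [hxdef]
  have hd1 : ζ - x * u ≠ 0 := by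
    intro h0
    have h1 : ζ = x * u := sub_eq_zero.mp h0
    have h2 : ‖ζ‖ = ‖u‖ := by rw [h1, norm_mul, hxnorm, one_mul]
    linarith
  have hd2 : u - ζ * x⁻¹ ≠ 0 := by
    intro h0
    have h1 : u = ζ * x⁻¹ := sub_eq_zero.mp h0
    have h2 : ‖u‖ = ‖ζ‖ := by rw [h1, norm_mul, norm_inv, hxnorm, inv_one, mul_one]
    linarith
  have hd3 : x * u - ζ ≠ 0 := by
    intro h0; apply hd1; linear_combination -h0
  have e1 : u - ζ * x⁻¹ = (x * u - ζ) * x⁻¹ := by field_simp
  rw [e1, mul_inv, inv_inv]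
  have e2 : (ζ - x * u) = -(x * u - ζ) := by ring
  rw [e2, inv_neg]
  field_simp

/-- **Cauchy transform of a disc.** -/
theorem integral_ball_inv_sub {ζ : ℂ} {P : ℝ} (hP : ‖ζ‖ < P) :
    (∫ w in ball (0 : ℂ) P, (ζ - w)⁻¹) = Real.pi * (starRingEnd ℂ) ζ := by
  have hP0 : 0 < P := lt_of_le_of_lt (norm_nonneg _) hP
  set I0 := ∫ w in ball (0 : ℂ) P, (ζ - w)⁻¹ with hI0
  -- rotation invariance
  have hrot : ∀ φ : ℝ, (∫ u in ball (0 : ℂ) P, (ζ - circleMap 0 1 φ * u)⁻¹) = I0 := by
    intro φ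
    set a : Circle := Circle.exp φ with ha
    have hmp : MeasurePreserving (rotation a) volume volume :=
      (rotation a).measurePreserving
    have hme : MeasurableEmbedding (rotation a) :=
      (rotation a).toHomeomorph.measurableEmbedding
    have hpre : (rotation a) ⁻¹' (ball 0 P) = ball 0 P := by
      ext u
      simp only [mem_preimage, mem_ball, dist_zero_right]
      simp [rotation_apply, Circle.norm_coe]
    have h1 := hmp.setIntegral_preimage_emb hme (fun w : ℂ => (ζ - w)⁻¹) (ball 0 P)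
    rw [hpre] at h1
    rw [hI0, ← h1]
    apply setIntegral_congr_fun measurableSet_ball
    intro u _
    simp [rotation_apply, ha, circleMap, Circle.coe_exp]
  have hconst : (∫ φ in (0 : ℝ)..(2 * Real.pi), ∫ u in ball (0 : ℂ) P,
      (ζ - circleMap 0 1 φ * u)⁻¹) = (2 * Real.pi : ℝ) • I0 := by
    simp_rw [hrot]
    rw [intervalIntegral.integral_const]
    simp
  have hint : Integrable (Function.uncurry fun (φ : ℝ) (u : ℂ) => (ζ - circleMap 0 1 φ * u)⁻¹)
      ((volume.restrict (uIoc 0 (2 * Real.pi))).prod (volume.restrict (ball (0 : ℂ) P))) := by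
    have hc : Continuous (fun φ : ℝ => (circleMap 0 1 φ)⁻¹) := by
      apply Continuous.inv₀ (by fun_prop)
      intro φ
      simp
    have := integrable_kernel (A := fun φ => (circleMap 0 1 φ)⁻¹)
      (B := fun φ => (circleMap 0 1 φ)⁻¹ * ζ) hc (hc.mul continuous_const) 0 (2 * Real.pi) P
    convert this using 1
    ext ⟨φ, u⟩
    simp only [Function.uncurry]
    have hx : circleMap 0 1 φ ≠ 0 := by simp
    set x := circleMap 0 1 φ
    by_cases hd : ζ - x * u = 0
    · have : x⁻¹ * ζ - u = 0 := by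
        have h1 : ζ = x * u := sub_eq_zero.mp hd
        rw [h1]; field_simp; ring
      rw [hd, this]; simp
    · have : x⁻¹ * ζ - u ≠ 0 := by
        intro h0
        apply hd
        have h1 : x⁻¹ * ζ = u := sub_eq_zero.mp h0
        rw [← h1]; field_simp; ring
      field_simp
  have hswap := intervalIntegral_integral_swap hint
  rw [hconst] at hswap
  set c : ℂ := 2 * Real.pi * ζ⁻¹ with hc
  have hae : (fun u : ℂ => ∫ φ in (0 : ℝ)..(2 * Real.pi), (ζ - circleMap 0 1 φ * u)⁻¹)
      =ᵐ[volume.restrict (ball (0 : ℂ) P)] (ball (0 : ℂ) ‖ζ‖).indicator (fun _ => c) := by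
    apply ae_restrict_of_ae
    have hnull : volume (sphere (0 : ℂ) ‖ζ‖) = 0 := Measure.addHaar_sphere _ _ _
    have : ∀ᵐ u : ℂ ∂volume, u ∉ sphere (0 : ℂ) ‖ζ‖ := measure_eq_zero_iff_ae_notMem.mp hnull
    filter_upwards [this] with u hu
    have hne : ‖u‖ ≠ ‖ζ‖ := by simpa using hu
    rcases lt_or_gt_of_ne hne with h | h
    · rw [integral_rot_inside h, indicator_of_mem (by simpa using h)]
    · rw [integral_rot_outside h, indicator_of_notMem (by simpa using h.le)]
  rw [integral_congr_ae hae, setIntegral_indicator measurableSet_ball, setIntegral_const] at hswap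
  have hinter : ball (0 : ℂ) P ∩ ball (0 : ℂ) ‖ζ‖ = ball (0 : ℂ) ‖ζ‖ :=
    inter_eq_right.mpr (ball_subset_ball hP.le)
  rw [hinter] at hswap
  have hvol : volume.real (ball (0 : ℂ) ‖ζ‖) = ‖ζ‖ ^ 2 * Real.pi := by
    simp [Measure.real, Complex.volume_ball, ENNReal.toReal_mul]
  rw [hvol] at hswap
  have hconj : ((‖ζ‖ : ℂ) ^ 2) * ζ⁻¹ = (starRingEnd ℂ) ζ := by
    by_cases hζ : ζ = 0
    · simp [hζ]
    · have := Complex.mul_conj ζ
      rw [Complex.normSq_eq_norm_sq] at this
      push_cast at this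
      rw [← this]
      field_simp
  simp only [Complex.real_smul] at hswap
  push_cast at hswap
  have hpi : (Real.pi : ℂ) ≠ 0 := by exact_mod_cast Real.pi_ne_zero
  have h2 : (2 : ℂ) ≠ 0 := two_ne_zero
  apply mul_left_cancel₀ (mul_ne_zero h2 hpi)
  rw [hswap, hc, ← hconj]
  ring

end Vale.Agent.Lib.P142
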