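import Mathlib

open Complex Metric Set Filter Topology MeasureTheory

namespace Vale.Agent.Lib.P142

/-- Taylor coefficients at the origin. -/
noncomputable def tc (G : ℂ → ℂ) (n : ℕ) : ℂ := ((n.factorial : ℂ))⁻¹ * iteratedDeriv n G 0

lemma hasSum_tc {G : ℂ → ℂ} (hG : DifferentiableOn ℂ G (ball 0 1)) {v : ℂ}
    (hv : v ∈ ball (0 : ℂ) 1) : HasSum (fun n => tc G n * v ^ n) (G v) := by
  have := Complex.hasSum_taylorSeries_on_ball hG hv
  have h : (fun n => tc G n * v ^ n)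
      = fun n => ((n.factorial : ℂ))⁻¹ • (v - 0) ^ n • iteratedDeriv n G 0 := by
    ext n
    simp only [tc, sub_zero, smul_eq_mul]
    ring
  rw [h]
  exact this

lemma summable_tc_norm {G : ℂ → ℂ} (hG : DifferentiableOn ℂ G (ball 0 1)) {ρ : ℝ}
    (hρ0 : 0 ≤ ρ) (hρ1 : ρ < 1) : Summable (fun n => ‖tc G n‖ * ρ ^ n) := by
  set ρ' : ℝ := (1 + ρ) / 2 with hρ'
  have hρ'0 : 0 < ρ' := by rw [hρ']; linarith
  have hρ'1 : ρ' < 1 := by rw [hρ']; linarith
  have hmem : (ρ' : ℂ) ∈ ball (0 : ℂ) 1 := by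
    simp [abs_of_pos hρ'0, hρ'1]
  have hs := (hasSum_tc hG hmem).summable
  have ht : Tendsto (fun n => tc G n * (ρ' : ℂ) ^ n) atTop (𝓝 0) := hs.tendsto_atTop_zero
  have hnorm : Tendsto (fun n => ‖tc G n‖ * ρ' ^ n) atTop (𝓝 0) := by
    have := ht.norm
    simp only [norm_mul, norm_pow, norm_real, Real.norm_eq_abs, abs_of_pos hρ'0, norm_zero] at this
    exact this
  obtain ⟨C, hC⟩ := hnorm.bddAbove_range
  have hC' : ∀ n, ‖tc G n‖ * ρ' ^ n ≤ C := fun n => hC ⟨n, rfl⟩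
  have hgeo : Summable (fun n : ℕ => C * (ρ / ρ') ^ n) := by
    apply Summable.mul_left
    apply summable_geometric_of_lt_one (by positivity)
    rw [div_lt_one hρ'0, hρ']; linarith
  refine Summable.of_nonneg_of_le (fun n => by positivity) (fun n => ?_) hgeo
  rw [div_pow]
  have hpow : (0 : ℝ) < ρ' ^ n := by positivity
  calc ‖tc G n‖ * ρ ^ n = (‖tc G n‖ * ρ' ^ n) * (ρ ^ n / ρ' ^ n) := by
        field_simp
    _ ≤ C * (ρ ^ n / ρ' ^ n) := by
        apply mul_le_mul_of_nonneg_right (hC' n) (by positivity)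

lemma circleMap_pow (ρ θ : ℝ) (n : ℕ) :
    circleMap 0 ρ θ ^ n = (ρ : ℂ) ^ n * exp ((n : ℂ) * (θ * I)) := by
  simp only [circleMap, zero_add, mul_pow]
  rw [← Complex.exp_nat_mul]

lemma integral_exp_int (k : ℤ) (hk : k ≠ 0) :
    (∫ θ in (0 : ℝ)..(2 * Real.pi), exp ((k : ℂ) * I * θ)) = 0 := by
  have hc : (k : ℂ) * I ≠ 0 := mul_ne_zero (by exact_mod_cast hk) I_ne_zero
  rw [integral_exp_mul_complex hc]
  have h1 : exp ((k : ℂ) * I * (2 * (Real.pi : ℂ))) = 1 := by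
    have := Complex.exp_int_mul_two_pi_mul_I k
    rw [← this]; congr 1; ring
  push_cast
  simp [h1]

lemma integral_exp_sub (m n : ℕ) :
    (∫ θ in (0 : ℝ)..(2 * Real.pi), exp (-(n : ℂ) * (θ * I)) * exp ((m : ℂ) * (θ * I)))
      = if m = n then (2 * Real.pi : ℂ) else 0 := by
  have hrw : ∀ θ : ℝ, exp (-(n : ℂ) * (θ * I)) * exp ((m : ℂ) * (θ * I))
      = exp ((((m : ℤ) - (n : ℤ) : ℤ) : ℂ) * I * θ) := by
    intro θ
    rw [← Complex.exp_add]; congr 1; push_cast; ring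
  simp_rw [hrw]
  split_ifs with h
  · subst h
    simp
  · apply integral_exp_int
    omega

/-- Extraction of Taylor coefficients on a circle. -/
lemma integral_coef {G : ℂ → ℂ} (hG : DifferentiableOn ℂ G (ball 0 1)) {ρ : ℝ}
    (hρ0 : 0 < ρ) (hρ1 : ρ < 1) (n : ℕ) :
    (∫ θ in (0 : ℝ)..(2 * Real.pi), exp (-(n : ℂ) * (θ * I)) * G (circleMap 0 ρ θ))
      = 2 * Real.pi * (tc G n * (ρ : ℂ) ^ n) := by
  have hmem : ∀ θ : ℝ, circleMap 0 ρ θ ∈ ball (0 : ℂ) 1 := by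
    intro θ
    simp [abs_of_pos hρ0, hρ1]
  have hsum := summable_tc_norm hG hρ0.le hρ1
  have hF : HasSum (fun m => ∫ θ in (0 : ℝ)..(2 * Real.pi),
      exp (-(n : ℂ) * (θ * I)) * (tc G m * circleMap 0 ρ θ ^ m))
      (∫ θ in (0 : ℝ)..(2 * Real.pi), exp (-(n : ℂ) * (θ * I)) * G (circleMap 0 ρ θ)) := by
    apply intervalIntegral.hasSum_integral_of_dominated_convergence
      (bound := fun m _ => ‖tc G m‖ * ρ ^ m)
    · intro m
      apply Continuous.aestronglyMeasurable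
      fun_prop
    · intro m
      refine Eventually.of_forall fun θ _ => ?_
      simp only [norm_mul, norm_pow, norm_circleMap_zero, abs_of_pos hρ0]
      have h1 : ‖exp (-(n : ℂ) * (θ * I))‖ = 1 := by
        have : -(n : ℂ) * (θ * I) = ((-(n : ℝ) * θ : ℝ) : ℂ) * I := by push_cast; ring
        rw [this, Complex.norm_exp_ofReal_mul_I]
      rw [h1, one_mul]
    · exact Eventually.of_forall fun θ _ => hsum
    · exact intervalIntegrable_const
    · refine Eventually.of_forall fun θ _ => ?_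
      exact (hasSum_tc hG (hmem θ)).mul_left _
  have hval : ∀ m, (∫ θ in (0 : ℝ)..(2 * Real.pi),
      exp (-(n : ℂ) * (θ * I)) * (tc G m * circleMap 0 ρ θ ^ m))
      = if m = n then 2 * Real.pi * (tc G n * (ρ : ℂ) ^ n) else 0 := by
    intro m
    have : ∀ θ : ℝ, exp (-(n : ℂ) * (θ * I)) * (tc G m * circleMap 0 ρ θ ^ m)
        = (tc G m * (ρ : ℂ) ^ m) * (exp (-(n : ℂ) * (θ * I)) * exp ((m : ℂ) * (θ * I))) := by
      intro θ; rw [circleMap_pow]; ring
    simp_rw [this]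
    rw [intervalIntegral.integral_const_mul, integral_exp_sub]
    split_ifs with h
    · subst h; ring
    · simp
  simp_rw [hval] at hF
  have huniq := hF.unique (hasSum_ite_eq n _)
  exact huniq

lemma hasDerivAt_comp_circleMap {G : ℂ → ℂ} (hG : DifferentiableOn ℂ G (ball 0 1)) {ρ : ℝ}
    (hρ0 : 0 < ρ) (hρ1 : ρ < 1) (θ : ℝ) :
    HasDerivAt (fun t : ℝ => G (circleMap 0 ρ t))
      (deriv G (circleMap 0 ρ θ) * (circleMap 0 ρ θ * I)) θ := by
  have hmem : circleMap 0 ρ θ ∈ ball (0 : ℂ) 1 := by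
    simp [abs_of_pos hρ0, hρ1]
  have h1 : HasDerivAt G (deriv G (circleMap 0 ρ θ)) (circleMap 0 ρ θ) :=
    (hG.differentiableAt (isOpen_ball.mem_nhds hmem)).hasDerivAt
  have h2 : HasDerivAt (circleMap 0 ρ) (circleMap 0 ρ θ * I) θ := hasDerivAt_circleMap 0 ρ θ
  exact h1.comp_of_eq θ h2 rfl

lemma continuous_comp_circleMap {G : ℂ → ℂ} (hG : DifferentiableOn ℂ G (ball 0 1)) {ρ : ℝ}
    (hρ0 : 0 < ρ) (hρ1 : ρ < 1) : Continuous (fun t : ℝ => G (circleMap 0 ρ t)) := by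
  rw [continuous_iff_continuousAt]
  intro θ
  exact (hasDerivAt_comp_circleMap hG hρ0 hρ1 θ).continuousAt

lemma integral_coef_deriv {G : ℂ → ℂ} (hG : DifferentiableOn ℂ G (ball 0 1)) {ρ : ℝ}
    (hρ0 : 0 < ρ) (hρ1 : ρ < 1) (n : ℕ) :
    (∫ θ in (0 : ℝ)..(2 * Real.pi), exp (-(n : ℂ) * (θ * I)) *
        (circleMap 0 ρ θ * deriv G (circleMap 0 ρ θ)))
      = n * (2 * Real.pi * (tc G n * (ρ : ℂ) ^ n)) := by
  set E : ℝ → ℂ := fun θ => exp (-(n : ℂ) * (θ * I)) with hE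
  set U : ℝ → ℂ := fun θ => G (circleMap 0 ρ θ) with hU
  set U' : ℝ → ℂ := fun θ => deriv G (circleMap 0 ρ θ) * (circleMap 0 ρ θ * I) with hU'
  set E' : ℝ → ℂ := fun θ => (-(n : ℂ) * I) * E θ with hE'
  have hEd : ∀ θ ∈ uIcc (0 : ℝ) (2 * Real.pi), HasDerivAt E (E' θ) θ := by
    intro θ _
    have h1 : HasDerivAt (fun t : ℝ => -(n : ℂ) * ((t : ℂ) * I)) (-(n : ℂ) * I) θ := by
      have h0 : HasDerivAt (fun t : ℝ => (t : ℂ)) 1 θ := (hasDerivAt_id θ).ofReal_comp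
      simpa using (h0.mul_const I).const_mul (-(n : ℂ))
    have h2 := h1.cexp
    simp only [hE', hE]
    convert h2 using 1
    ring
  have hUd : ∀ θ ∈ uIcc (0 : ℝ) (2 * Real.pi), HasDerivAt U (U' θ) θ :=
    fun θ _ => hasDerivAt_comp_circleMap hG hρ0 hρ1 θ
  have hG' : DifferentiableOn ℂ (deriv G) (ball 0 1) := hG.deriv isOpen_ball
  have hcontG' := continuous_comp_circleMap hG' hρ0 hρ1
  have hcontU' : Continuous U' := by
    apply Continuous.mul hcontG'
    fun_prop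
  have hcontE : Continuous E := by fun_prop
  have hcontE' : Continuous E' := by fun_prop
  have hcontU : Continuous U := continuous_comp_circleMap hG hρ0 hρ1
  have hparts := intervalIntegral.integral_mul_deriv_eq_deriv_mul hEd hUd
    (hcontE'.intervalIntegrable _ _) (hcontU'.intervalIntegrable _ _)
  have hE2 : E (2 * Real.pi) = 1 := by
    simp only [hE]
    have := Complex.exp_int_mul_two_pi_mul_I (-(n : ℤ))
    rw [← this]; congr 1; push_cast; ring
  have hE0 : E 0 = 1 := by simp [hE]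
  have hU2 : U (2 * Real.pi) = U 0 := by
    simp only [hU]
    congr 1
    exact (periodic_circleMap 0 ρ).eq.trans (by simp)
  have hL : (∫ θ in (0 : ℝ)..(2 * Real.pi), E θ * U' θ)
      = I * ∫ θ in (0 : ℝ)..(2 * Real.pi), E θ * (circleMap 0 ρ θ * deriv G (circleMap 0 ρ θ)) := by
    rw [← intervalIntegral.integral_const_mul]
    congr 1; ext θ; simp only [hU']; ring
  have hR : (∫ θ in (0 : ℝ)..(2 * Real.pi), E' θ * U θ)
      = (-(n : ℂ) * I) * ∫ θ in (0 : ℝ)..(2 * Real.pi), E θ * U θ := by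
    rw [← intervalIntegral.integral_const_mul]
    congr 1; ext θ; simp only [hE']; ring
  rw [hL, hR, hE2, hE0, hU2, integral_coef hG hρ0 hρ1 n] at hparts
  have hI : (I : ℂ) ≠ 0 := I_ne_zero
  apply mul_left_cancel₀ hI
  rw [hparts]
  ring

/-- Dirichlet-type lower bound on the circle. -/
lemma re_integral_conj_mul_deriv_ge {G : ℂ → ℂ} (hG : DifferentiableOn ℂ G (ball 0 1)) {ρ : ℝ}
    (hρ0 : 0 < ρ) (hρ1 : ρ < 1) :
    2 * Real.pi * (‖deriv G 0‖ ^ 2 * ρ ^ 2) ≤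
      (∫ θ in (0 : ℝ)..(2 * Real.pi), (starRingEnd ℂ) (G (circleMap 0 ρ θ)) *
        (circleMap 0 ρ θ * deriv G (circleMap 0 ρ θ))).re := by
  have hmem : ∀ θ : ℝ, circleMap 0 ρ θ ∈ ball (0 : ℂ) 1 := by
    intro θ
    simp [abs_of_pos hρ0, hρ1]
  have hG' : DifferentiableOn ℂ (deriv G) (ball 0 1) := hG.deriv isOpen_ball
  have hcontG' := continuous_comp_circleMap hG' hρ0 hρ1
  set F : ℝ → ℂ := fun θ => circleMap 0 ρ θ * deriv G (circleMap 0 ρ θ) with hF
  have hcontF : Continuous F := by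
    apply Continuous.mul _ hcontG'
    fun_prop
  -- bound on F
  obtain ⟨M, hM⟩ : ∃ M, ∀ θ ∈ uIcc (0 : ℝ) (2 * Real.pi), ‖F θ‖ ≤ M := by
    obtain ⟨M, hM⟩ := (isCompact_uIcc (a := (0 : ℝ)) (b := 2 * Real.pi)).exists_bound_of_continuousOn
      hcontF.continuousOn
    exact ⟨M, hM⟩
  have hM0 : 0 ≤ M := by
    have := hM 0 (by simp [uIcc_of_le, Real.pi_pos.le])
    exact (norm_nonneg _).trans this
  have hsum := (summable_tc_norm hG hρ0.le hρ1).mul_right M
  have hconjsum : ∀ θ : ℝ, HasSum (fun n => (starRingEnd ℂ) (tc G n) * (ρ : ℂ) ^ n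
      * exp (-(n : ℂ) * (θ * I))) ((starRingEnd ℂ) (G (circleMap 0 ρ θ))) := by
    intro θ
    have h0 := (hasSum_tc hG (hmem θ))
    have h1 := (Complex.hasSum_conj' ).2 h0
    convert h1 using 2 with n
    rw [circleMap_pow, map_mul, map_mul, map_pow, conj_ofReal, ← Complex.exp_conj]
    have : (starRingEnd ℂ) ((n : ℂ) * (θ * I)) = -(n : ℂ) * (θ * I) := by
      simp [map_mul, conj_ofReal, conj_I]
    rw [this]
    ring
  have hH : HasSum (fun n => ∫ θ in (0 : ℝ)..(2 * Real.pi),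
      (starRingEnd ℂ) (tc G n) * (ρ : ℂ) ^ n * exp (-(n : ℂ) * (θ * I)) * F θ)
      (∫ θ in (0 : ℝ)..(2 * Real.pi), (starRingEnd ℂ) (G (circleMap 0 ρ θ)) * F θ) := by
    apply intervalIntegral.hasSum_integral_of_dominated_convergence
      (bound := fun m _ => ‖tc G m‖ * ρ ^ m * M)
    · intro m
      apply Continuous.aestronglyMeasurable
      apply Continuous.mul _ hcontF
      fun_prop
    · intro m
      refine Eventually.of_forall fun θ hθ => ?_
      have hθ' : θ ∈ uIcc (0 : ℝ) (2 * Real.pi) := uIoc_subset_uIcc hθ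
      have h1 : ‖exp (-(m : ℂ) * (θ * I))‖ = 1 := by
        have : -(m : ℂ) * (θ * I) = ((-(m : ℝ) * θ : ℝ) : ℂ) * I := by push_cast; ring
        rw [this, Complex.norm_exp_ofReal_mul_I]
      simp only [norm_mul, norm_pow, norm_real, Real.norm_eq_abs, abs_of_pos hρ0, h1, mul_one,
        RCLike.norm_conj]
      exact mul_le_mul_of_nonneg_left (hM θ hθ') (by positivity)
    · exact Eventually.of_forall fun θ _ => hsum
    · exact intervalIntegrable_const
    · refine Eventually.of_forall fun θ _ => ?_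
      exact (hconjsum θ).mul_right _
  have hval : ∀ n : ℕ, (∫ θ in (0 : ℝ)..(2 * Real.pi),
      (starRingEnd ℂ) (tc G n) * (ρ : ℂ) ^ n * exp (-(n : ℂ) * (θ * I)) * F θ)
      = ((2 * Real.pi * n * (‖tc G n‖ ^ 2 * ρ ^ (2 * n)) : ℝ) : ℂ) := by
    intro n
    have h1 : ∀ θ : ℝ, (starRingEnd ℂ) (tc G n) * (ρ : ℂ) ^ n * exp (-(n : ℂ) * (θ * I)) * F θ
        = ((starRingEnd ℂ) (tc G n) * (ρ : ℂ) ^ n) * (exp (-(n : ℂ) * (θ * I)) * F θ) := by
      intro θ; ring
    simp_rw [h1]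
    rw [intervalIntegral.integral_const_mul, integral_coef_deriv hG hρ0 hρ1 n]
    have h2 : (starRingEnd ℂ) (tc G n) * tc G n = ((‖tc G n‖ ^ 2 : ℝ) : ℂ) := by
      rw [mul_comm, Complex.mul_conj, Complex.normSq_eq_norm_sq]
    push_cast at h2 ⊢
    calc _ = ((starRingEnd ℂ) (tc G n) * tc G n) * (2 * Real.pi * n * (ρ : ℂ) ^ n * (ρ : ℂ) ^ n) := by
          ring
      _ = _ := by rw [h2, pow_mul' (ρ : ℂ) ]; ring_nf
  simp_rw [hval] at hH
  have hHre := Complex.hasSum_re hH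
  simp only [ofReal_re] at hHre
  have hle := le_hasSum hHre 1 (fun j _ => by positivity)
  have htc1 : tc G 1 = deriv G 0 := by simp [tc]
  rw [htc1] at hle
  simpa using hle

end Vale.Agent.Lib.P142
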