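import Vale.Agent.Lib.P142.Basic
import Vale.Agent.Lib.P142.Series
import Vale.Agent.Lib.P142.CauchyKernel

open Complex Metric Set Filter Topology MeasureTheory

namespace Vale.Agent.Lib.P142

section Area

variable {h G : ℂ → ℂ}

lemma h_ne_zero (hinj : InjOn h (ball 0 1)) (h0 : h 0 = 0) {v : ℂ} (hv : v ∈ ball (0 : ℂ) 1)
    (hv0 : v ≠ 0) : h v ≠ 0 := by
  intro hz
  apply hv0
  apply hinj hv (mem_ball_self one_pos)
  rw [hz, h0]

/-- the derivative of `1/h` in terms of `G` -/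
lemma deriv_rel (hh : DifferentiableOn ℂ h (ball 0 1)) (hinj : InjOn h (ball 0 1)) (h0 : h 0 = 0)
    (hG : DifferentiableOn ℂ G (ball 0 1))
    (hrel : ∀ v ∈ ball (0 : ℂ) 1, v ≠ 0 → (h v)⁻¹ = v⁻¹ + G v)
    {v : ℂ} (hv : v ∈ ball (0 : ℂ) 1) (hv0 : v ≠ 0) :
    deriv G v - (v ^ 2)⁻¹ = - deriv h v / (h v) ^ 2 := by
  have hnhds : ball (0 : ℂ) 1 ∈ 𝓝 v := isOpen_ball.mem_nhds hv
  have hdh : DifferentiableAt ℂ h v := hh.differentiableAt hnhds
  have hdG : DifferentiableAt ℂ G v := hG.differentiableAt hnhds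
  have hhv : h v ≠ 0 := h_ne_zero hinj h0 hv hv0
  have h1 : HasDerivAt (fun z => (h z)⁻¹) (- deriv h v / (h v) ^ 2) v := hdh.hasDerivAt.inv hhv
  have h2 : HasDerivAt (fun z : ℂ => z⁻¹ + G z) (-(v ^ 2)⁻¹ + deriv G v) v :=
    (hasDerivAt_inv hv0).add hdG.hasDerivAt
  have hev : (fun z => (h z)⁻¹) =ᶠ[𝓝 v] fun z => z⁻¹ + G z := by
    filter_upwards [hnhds, isOpen_ne.mem_nhds hv0] with z hz hz0
    exact hrel z hz hz0
  have h3 := h1.congr_of_eventuallyEq hev.symm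
  have := h3.unique h2
  rw [this]; ring

lemma alg_rel {a d w x : ℂ} (ha : a ≠ 0) (hw : w ≠ 0) (hx : x ≠ 0) (hrel : x = a - w⁻¹) :
    (-d / a ^ 2) * (a⁻¹ - w)⁻¹ = d / x - d / a := by
  have e : a⁻¹ - w = (-w * a⁻¹) * x := by
    rw [hrel]; field_simp; ring
  rw [e]
  have e2 : d / x - d / a = d * (a - x) / (x * a) := by
    field_simp
  rw [e2]
  have e3 : a - x = w⁻¹ := by rw [hrel]; ring
  rw [e3]
  field_simp

/-- Values of the winding integral. -/
lemma N_eq (hh : DifferentiableOn ℂ h (ball 0 1)) (hinj : InjOn h (ball 0 1)) (h0 : h 0 = 0)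
    (hG : DifferentiableOn ℂ G (ball 0 1))
    (hrel : ∀ v ∈ ball (0 : ℂ) 1, v ≠ 0 → (h v)⁻¹ = v⁻¹ + G v)
    {ρ : ℝ} (hρ0 : 0 < ρ) (hρ1 : ρ < 1) {w : ℂ} (hw0 : w ≠ 0)
    (hw : ∀ v ∈ sphere (0 : ℂ) ρ, (h v)⁻¹ ≠ w) :
    (∮ v in C(0, ρ), (deriv G v - (v ^ 2)⁻¹) * ((h v)⁻¹ - w)⁻¹) =
      - (2 * Real.pi * I) + ∮ v in C(0, ρ), deriv h v / (h v - w⁻¹) := by
  have hsub : closedBall (0 : ℂ) ρ ⊆ ball (0 : ℂ) 1 := closedBall_subset_ball hρ1
  have hd' : DifferentiableOn ℂ (deriv h) (ball 0 1) := hh.deriv isOpen_ball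
  have hzero : (0 : ℂ) ∈ ball (0 : ℂ) ρ := mem_ball_self hρ0
  have hwind := circleIntegral_logDeriv_of_mem hh hinj hρ0 hρ1 hzero
  rw [h0] at hwind
  have hsph : ∀ v ∈ sphere (0 : ℂ) ρ, v ∈ ball (0 : ℂ) 1 ∧ v ≠ 0 := by
    intro v hv
    refine ⟨hsub (sphere_subset_closedBall hv), ?_⟩
    intro h0v
    rw [h0v, mem_sphere_zero_iff_norm, norm_zero] at hv
    linarith
  have hcongr : EqOn (fun v => (deriv G v - (v ^ 2)⁻¹) * ((h v)⁻¹ - w)⁻¹)
      (fun v => deriv h v / (h v - w⁻¹) - deriv h v / (h v - 0)) (sphere (0 : ℂ) ρ) := by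
    intro v hv
    obtain ⟨hv1, hv0⟩ := hsph v hv
    have hhv := h_ne_zero hinj h0 hv1 hv0
    have hne1 : (h v)⁻¹ - w ≠ 0 := sub_ne_zero.mpr (hw v hv)
    have hne2 : h v - w⁻¹ ≠ 0 := by
      intro h2
      apply hw v hv
      rw [sub_eq_zero.mp h2, inv_inv]
    simp only
    rw [deriv_rel hh hinj h0 hG hrel hv1 hv0, sub_zero]
    exact alg_rel hhv hw0 hne2 rfl
  rw [circleIntegral.integral_congr hρ0.le hcongr]
  have hcont : ∀ c : ℂ, (∀ v ∈ sphere (0 : ℂ) ρ, h v ≠ c) →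
      CircleIntegrable (fun v => deriv h v / (h v - c)) 0 ρ := by
    intro c hc
    apply ContinuousOn.circleIntegrable hρ0.le
    apply ContinuousOn.div
    · exact hd'.continuousOn.mono (sphere_subset_closedBall.trans hsub)
    · exact (hh.continuousOn.mono (sphere_subset_closedBall.trans hsub)).sub continuousOn_const
    · intro v hv
      exact sub_ne_zero.mpr (hc v hv)
  have hI1 := hcont w⁻¹ (by
    intro v hv h2
    apply hw v hv
    rw [h2, inv_inv])
  have hI2 := hcont 0 (by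
    intro v hv
    obtain ⟨hv1, hv0⟩ := hsph v hv
    exact h_ne_zero hinj h0 hv1 hv0)
  rw [circleIntegral.integral_sub hI1 hI2, hwind]
  ring

/-- mean value on a circle inside the disc -/
lemma integral_circle_of_diff {H : ℂ → ℂ} (hH : DifferentiableOn ℂ H (ball 0 1)) {ρ : ℝ}
    (hρ0 : 0 < ρ) (hρ1 : ρ < 1) :
    (∫ θ in (0 : ℝ)..(2 * Real.pi), H (circleMap 0 ρ θ)) = 2 * Real.pi * H 0 := by
  have hsub : closedBall (0 : ℂ) |ρ| ⊆ ball (0 : ℂ) 1 := by
    rw [abs_of_pos hρ0]; exact closedBall_subset_ball hρ1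
  have hav := circleAverage_of_differentiable_on_off_countable (f := H)
    (c := 0) (R := ρ) (s := ∅) Set.countable_empty (hH.continuousOn.mono hsub)
    (fun z hz => hH.differentiableAt
      (isOpen_ball.mem_nhds (hsub (ball_subset_closedBall hz.1))))
  rw [Real.circleAverage_def] at hav
  have hpi : (2 * Real.pi : ℝ) ≠ 0 := by simp [Real.pi_ne_zero]
  calc (∫ θ in (0 : ℝ)..(2 * Real.pi), H (circleMap 0 ρ θ))
      = (2 * Real.pi : ℝ) • ((2 * Real.pi : ℝ)⁻¹ •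
          ∫ θ in (0 : ℝ)..(2 * Real.pi), H (circleMap 0 ρ θ)) := by
        rw [smul_smul, mul_inv_cancel₀ hpi, one_smul]
    _ = 2 * Real.pi * H 0 := by
        rw [hav, Complex.real_smul]; push_cast; ring

/-- Key inequality: the area enclosed by the image curve is nonnegative. -/
theorem area_key (hh : DifferentiableOn ℂ h (ball 0 1)) (hinj : InjOn h (ball 0 1)) (h0 : h 0 = 0)
    (hG : DifferentiableOn ℂ G (ball 0 1))
    (hrel : ∀ v ∈ ball (0 : ℂ) 1, v ≠ 0 → (h v)⁻¹ = v⁻¹ + G v)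
    {ρ : ℝ} (hρ0 : 0 < ρ) (hρ1 : ρ < 1) :
    (∫ θ in (0 : ℝ)..(2 * Real.pi), (starRingEnd ℂ) (G (circleMap 0 ρ θ)) *
        (circleMap 0 ρ θ * deriv G (circleMap 0 ρ θ))).re ≤ 2 * Real.pi / ρ ^ 2 := by
  have hsub : closedBall (0 : ℂ) ρ ⊆ ball (0 : ℂ) 1 := closedBall_subset_ball hρ1
  have hsph : ∀ v ∈ sphere (0 : ℂ) ρ, v ∈ ball (0 : ℂ) 1 ∧ v ≠ 0 := by
    intro v hv
    refine ⟨hsub (sphere_subset_closedBall hv), ?_⟩
    intro h0v
    rw [h0v, mem_sphere_zero_iff_norm, norm_zero] at hv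
    linarith
  have hcm : ∀ θ : ℝ, circleMap 0 ρ θ ∈ sphere (0 : ℂ) ρ := fun θ =>
    circleMap_mem_sphere 0 hρ0.le θ
  have hG' : DifferentiableOn ℂ (deriv G) (ball 0 1) := hG.deriv isOpen_ball
  -- continuity on the sphere
  have hgc : ContinuousOn (fun z => (h z)⁻¹) (sphere (0 : ℂ) ρ) := by
    apply ContinuousOn.inv₀ (hh.continuousOn.mono (sphere_subset_closedBall.trans hsub))
    intro v hv
    obtain ⟨hv1, hv0⟩ := hsph v hv
    exact h_ne_zero hinj h0 hv1 hv0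
  have hpc : ContinuousOn (fun z => deriv G z - (z ^ 2)⁻¹) (sphere (0 : ℂ) ρ) := by
    apply ContinuousOn.sub (hG'.continuousOn.mono (sphere_subset_closedBall.trans hsub))
    apply ContinuousOn.inv₀ (by fun_prop)
    intro v hv
    exact pow_ne_zero 2 (hsph v hv).2
  have hBc : Continuous (fun θ : ℝ => (h (circleMap 0 ρ θ))⁻¹) :=
    hgc.comp_continuous (continuous_circleMap 0 ρ) hcm
  have hpc' : Continuous (fun θ : ℝ => deriv G (circleMap 0 ρ θ) - ((circleMap 0 ρ θ) ^ 2)⁻¹) :=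
    hpc.comp_continuous (continuous_circleMap 0 ρ) hcm
  have hAc : Continuous (fun θ : ℝ => (circleMap 0 ρ θ * I) *
      (deriv G (circleMap 0 ρ θ) - ((circleMap 0 ρ θ) ^ 2)⁻¹)) :=
    ((continuous_circleMap 0 ρ).mul continuous_const).mul hpc'
  obtain ⟨C, hC⟩ := (isCompact_sphere (0 : ℂ) ρ).exists_bound_of_continuousOn hgc
  set P : ℝ := max C 0 + 1 with hP
  have hPlt : ∀ θ : ℝ, ‖(h (circleMap 0 ρ θ))⁻¹‖ < P := by
    intro θ
    have := hC _ (hcm θ)
    have h2 : C ≤ max C 0 := le_max_left _ _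
    simp only [hP]
    linarith
  set A : ℝ → ℂ := fun θ => (circleMap 0 ρ θ * I) *
      (deriv G (circleMap 0 ρ θ) - ((circleMap 0 ρ θ) ^ 2)⁻¹) with hA
  set B : ℝ → ℂ := fun θ => (h (circleMap 0 ρ θ))⁻¹ with hB
  have hint := integrable_kernel (A := A) (B := B) hAc hBc 0 (2 * Real.pi) P
  have hswap := intervalIntegral_integral_swap hint
  -- left side
  have hL : ∀ θ : ℝ, (∫ w in ball (0 : ℂ) P, A θ * (B θ - w)⁻¹)
      = A θ * (Real.pi * (starRingEnd ℂ) (B θ)) := by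
    intro θ
    rw [integral_const_mul, integral_ball_inv_sub (hPlt θ)]
  simp_rw [hL] at hswap
  -- the winding number
  set N : ℂ → ℂ := fun w => ∮ v in C(0, ρ), (deriv G v - (v ^ 2)⁻¹) * ((h v)⁻¹ - w)⁻¹ with hN
  have hNdef : ∀ w : ℂ, (∫ θ in (0 : ℝ)..(2 * Real.pi), A θ * (B θ - w)⁻¹) = N w := by
    intro w
    simp only [hN, circleIntegral, deriv_circleMap, hA, hB, smul_eq_mul]
    apply intervalIntegral.integral_congr
    intro θ _
    simp only
    ring
  simp_rw [hNdef] at hswap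
  -- null set
  have hnull : volume ((fun z => (h z)⁻¹) '' sphere (0 : ℂ) ρ) = 0 := by
    apply addHaar_image_eq_zero_of_differentiableOn_of_addHaar_eq_zero
    · have : DifferentiableOn ℂ (fun z => (h z)⁻¹) (sphere (0 : ℂ) ρ) := by
        apply DifferentiableOn.inv (hh.mono (sphere_subset_closedBall.trans hsub))
        intro v hv
        obtain ⟨hv1, hv0⟩ := hsph v hv
        exact h_ne_zero hinj h0 hv1 hv0
      exact this.restrictScalars ℝ
    · exact Measure.addHaar_sphere _ _ _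
  have hnull2 : volume (((fun z => (h z)⁻¹) '' sphere (0 : ℂ) ρ) ∪ {0}) = 0 := by
    rw [measure_union_null_iff]
    exact ⟨hnull, by simp⟩
  -- values of N
  have hNval : ∀ w : ℂ, w ∉ ((fun z => (h z)⁻¹) '' sphere (0 : ℂ) ρ) ∪ {0} →
      N w = 0 ∨ N w = -(2 * Real.pi * I) := by
    intro w hw
    simp only [mem_union, mem_image, mem_singleton_iff, not_or, not_exists, not_and] at hw
    obtain ⟨hw1, hw0⟩ := hw
    have hNe := N_eq hh hinj h0 hG hrel hρ0 hρ1 hw0 hw1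
    simp only [hN]
    rw [hNe]
    by_cases hex : ∃ v₀ ∈ ball (0 : ℂ) ρ, h v₀ = w⁻¹
    · obtain ⟨v₀, hv₀, hval⟩ := hex
      left
      rw [← hval, circleIntegral_logDeriv_of_mem hh hinj hρ0 hρ1 hv₀]
      ring
    · right
      push Not at hex
      have hcl : ∀ v ∈ closedBall (0 : ℂ) ρ, h v ≠ w⁻¹ := by
        intro v hv
        rcases (mem_closedBall.mp hv).lt_or_eq with hlt | heq
        · exact hex v (mem_ball.mpr hlt)
        · intro h2
          apply hw1 v (by simpa [dist_eq_norm] using heq)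
          rw [h2, inv_inv]
      rw [circleIntegral_logDeriv_of_notMem hh hρ0 hρ1 hcl]
      ring
  -- real nonnegativity of the integral
  set r : ℂ → ℝ := fun w => (I * N w).re with hr
  have hae : ∀ᵐ w ∂(volume.restrict (ball (0 : ℂ) P)), I * N w = (r w : ℂ) ∧ 0 ≤ r w := by
    apply ae_restrict_of_ae
    filter_upwards [measure_eq_zero_iff_ae_notMem.mp hnull2] with w hw
    rcases hNval w hw with h1 | h1
    · simp [hr, h1]
    · have : I * N w = ((2 * Real.pi : ℝ) : ℂ) := by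
        rw [h1]
        push_cast
        ring_nf
        rw [I_sq]
        ring
      simp only [hr, this]
      constructor
      · simp
      · simp [Real.pi_pos.le]
  have hint2 : (∫ w in ball (0 : ℂ) P, I * N w) = ((∫ w in ball (0 : ℂ) P, r w : ℝ) : ℂ) := by
    rw [← integral_complex_ofReal]
    exact integral_congr_ae (hae.mono fun w hw => hw.1)
  have hrpos : 0 ≤ ∫ w in ball (0 : ℂ) P, r w :=
    integral_nonneg_of_ae (hae.mono fun w hw => hw.2)
  -- evaluate J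
  set D := ∫ θ in (0 : ℝ)..(2 * Real.pi), (starRingEnd ℂ) (G (circleMap 0 ρ θ)) *
        (circleMap 0 ρ θ * deriv G (circleMap 0 ρ θ)) with hD
  have hρC : (ρ : ℂ) ≠ 0 := by exact_mod_cast hρ0.ne'
  have hpointwise : ∀ θ : ℝ, A θ * (Real.pi * (starRingEnd ℂ) (B θ))
      = Real.pi * I * (((starRingEnd ℂ) (G (circleMap 0 ρ θ)) *
          (circleMap 0 ρ θ * deriv G (circleMap 0 ρ θ)))
        + ((ρ : ℂ) ^ 2)⁻¹ * ((circleMap 0 ρ θ) ^ 2 * deriv G (circleMap 0 ρ θ))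
        - ((ρ : ℂ) ^ 2)⁻¹
        - ((ρ : ℂ) ^ 2)⁻¹ * (starRingEnd ℂ) (G (circleMap 0 ρ θ) * circleMap 0 ρ θ)) := by
    intro θ
    obtain ⟨hv1, hv0⟩ := hsph _ (hcm θ)
    set v := circleMap 0 ρ θ with hv
    have hvnorm : v * (starRingEnd ℂ) v = (ρ : ℂ) ^ 2 := by
      rw [Complex.mul_conj, Complex.normSq_eq_norm_sq]
      have : ‖v‖ = ρ := by
        simp [hv, abs_of_pos hρ0]
      rw [this]; push_cast; ring
    have hconjv : (starRingEnd ℂ) v = (ρ : ℂ) ^ 2 * v⁻¹ := by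
      field_simp
      rw [mul_comm, hvnorm]
    have hBθ : (starRingEnd ℂ) (B θ) = (starRingEnd ℂ) (G v) + v * ((ρ : ℂ) ^ 2)⁻¹ := by
      simp only [hB]
      rw [hrel v hv1 hv0, map_add, map_inv₀, hconjv]
      field_simp
      ring
    rw [hBθ]
    simp only [hA]
    rw [map_mul, hconjv]
    rw [← hv]
    field_simp
    ring
  have hcontDint : Continuous (fun θ : ℝ => (starRingEnd ℂ) (G (circleMap 0 ρ θ)) *
          (circleMap 0 ρ θ * deriv G (circleMap 0 ρ θ))) :=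
    (continuous_conj.comp (continuous_comp_circleMap hG hρ0 hρ1)).mul
      ((continuous_circleMap 0 ρ).mul (continuous_comp_circleMap hG' hρ0 hρ1))
  have hH1 : DifferentiableOn ℂ (fun z => z ^ 2 * deriv G z) (ball 0 1) :=
    (differentiable_id.pow 2).differentiableOn.mul hG'
  have hH2 : DifferentiableOn ℂ (fun z => G z * z) (ball 0 1) :=
    hG.mul differentiable_id.differentiableOn
  have hcontH1 : Continuous (fun θ : ℝ => (circleMap 0 ρ θ) ^ 2 * deriv G (circleMap 0 ρ θ)) :=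
    continuous_comp_circleMap hH1 hρ0 hρ1
  have hcontH2 : Continuous (fun θ : ℝ => G (circleMap 0 ρ θ) * circleMap 0 ρ θ) :=
    continuous_comp_circleMap hH2 hρ0 hρ1
  have hint1 : (∫ θ in (0 : ℝ)..(2 * Real.pi), (circleMap 0 ρ θ) ^ 2 * deriv G (circleMap 0 ρ θ))
      = 0 := by
    have := integral_circle_of_diff hH1 hρ0 hρ1
    simpa using this
  have hint3 : (∫ θ in (0 : ℝ)..(2 * Real.pi),
      (starRingEnd ℂ) (G (circleMap 0 ρ θ) * circleMap 0 ρ θ)) = 0 := by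
    have h1 := integral_circle_of_diff hH2 hρ0 hρ1
    simp only [mul_zero] at h1
    rw [intervalIntegral.integral_of_le (by positivity)] at h1 ⊢
    rw [integral_conj, h1]
    simp
  have hJ : (∫ θ in (0 : ℝ)..(2 * Real.pi), A θ * (Real.pi * (starRingEnd ℂ) (B θ)))
      = Real.pi * I * (D - 2 * Real.pi * ((ρ : ℂ) ^ 2)⁻¹) := by
    simp_rw [hpointwise]
    rw [intervalIntegral.integral_const_mul]
    congr 1
    rw [intervalIntegral.integral_sub, intervalIntegral.integral_sub, intervalIntegral.integral_add,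
      intervalIntegral.integral_const_mul, intervalIntegral.integral_const_mul, hint1, hint3,
      intervalIntegral.integral_const]
    · simp only [sub_zero, Complex.real_smul, mul_zero, add_zero]
      push_cast
      ring
    · exact hcontDint.intervalIntegrable _ _
    · exact (continuous_const.mul hcontH1).intervalIntegrable _ _
    · exact (hcontDint.add (continuous_const.mul hcontH1)).intervalIntegrable _ _
    · exact intervalIntegrable_const
    · exact ((hcontDint.add (continuous_const.mul hcontH1)).sub continuous_const).intervalIntegrable _ _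
    · exact (continuous_const.mul (continuous_conj.comp hcontH2)).intervalIntegrable _ _
  rw [hJ] at hswap
  -- conclude
  have hfinal : I * (Real.pi * I * (D - 2 * Real.pi * ((ρ : ℂ) ^ 2)⁻¹))
      = ((∫ w in ball (0 : ℂ) P, r w : ℝ) : ℂ) := by
    rw [← hint2, hswap, integral_const_mul]
  have hre := congrArg Complex.re hfinal
  have hleft : I * (Real.pi * I * (D - 2 * Real.pi * ((ρ : ℂ) ^ 2)⁻¹))
      = -(Real.pi : ℂ) * (D - ((2 * Real.pi / ρ ^ 2 : ℝ) : ℂ)) := by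
    push_cast
    have : I * (Real.pi * I * (D - 2 * Real.pi * ((ρ : ℂ) ^ 2)⁻¹))
        = (I * I) * (Real.pi * (D - 2 * Real.pi * ((ρ : ℂ) ^ 2)⁻¹)) := by ring
    rw [this, I_mul_I]
    field_simp
  rw [hleft] at hre
  simp only [ofReal_re, mul_re, neg_re, ofReal_im, neg_im, sub_re, sub_im, ofReal_re, ofReal_im,
    neg_zero, zero_mul, sub_zero] at hre
  have hpi := Real.pi_pos
  have : 0 ≤ -Real.pi * (D.re - 2 * Real.pi / ρ ^ 2) := by
    rw [hre]; exact hrpos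
  nlinarith

/-- **Coefficient bound from the area theorem.** -/
theorem area_coeff_bound (hh : DifferentiableOn ℂ h (ball 0 1)) (hinj : InjOn h (ball 0 1))
    (h0 : h 0 = 0) (hG : DifferentiableOn ℂ G (ball 0 1))
    (hrel : ∀ v ∈ ball (0 : ℂ) 1, v ≠ 0 → (h v)⁻¹ = v⁻¹ + G v) :
    ‖deriv G 0‖ ≤ 1 := by
  have hkey : ∀ ρ : ℝ, 0 < ρ → ρ < 1 → ‖deriv G 0‖ ^ 2 * ρ ^ 4 ≤ 1 := by
    intro ρ hρ0 hρ1
    have h1 := re_integral_conj_mul_deriv_ge hG hρ0 hρ1
    have h2 := area_key hh hinj h0 hG hrel hρ0 hρ1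
    have h3 := h1.trans h2
    have hpi := Real.pi_pos
    have hρ2 : 0 < ρ ^ 2 := by positivity
    rw [le_div_iff₀ hρ2] at h3
    have h4 : 2 * Real.pi * (‖deriv G 0‖ ^ 2 * ρ ^ 4) ≤ 2 * Real.pi * 1 := by
      calc 2 * Real.pi * (‖deriv G 0‖ ^ 2 * ρ ^ 4)
          = 2 * Real.pi * (‖deriv G 0‖ ^ 2 * ρ ^ 2) * ρ ^ 2 := by ring
        _ ≤ 2 * Real.pi := h3
        _ = 2 * Real.pi * 1 := by ring
    exact le_of_mul_le_mul_left h4 (by positivity)
  have hlim : ‖deriv G 0‖ ^ 2 * (1 : ℝ) ^ 4 ≤ 1 := by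
    have hc : ContinuousAt (fun ρ : ℝ => ‖deriv G 0‖ ^ 2 * ρ ^ 4) 1 := by fun_prop
    have hfreq : Tendsto (fun ρ : ℝ => ‖deriv G 0‖ ^ 2 * ρ ^ 4) (𝓝[<] 1)
        (𝓝 (‖deriv G 0‖ ^ 2 * (1 : ℝ) ^ 4)) := hc.tendsto.mono_left nhdsWithin_le_nhds
    apply le_of_tendsto hfreq
    filter_upwards [Ioo_mem_nhdsLT (show (0 : ℝ) < 1 by norm_num)] with ρ hρ
    exact hkey ρ hρ.1 hρ.2
  have : ‖deriv G 0‖ ^ 2 ≤ 1 := by simpa using hlim
  nlinarith [norm_nonneg (deriv G 0)]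

end Area

end Vale.Agent.Lib.P142
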