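import Vale.Agent.Lib.P142.Rotation

open Complex Metric Set Filter Topology MeasureTheory

namespace Vale.Agent.Lib.P142

lemma tendsto_L : Tendsto (fun r : ℝ => Real.log (1 / (1 - r))) (𝓝[<] 1) atTop := by
  apply Real.tendsto_log_atTop.comp
  have h1 : Tendsto (fun r : ℝ => 1 - r) (𝓝[<] 1) (𝓝[>] 0) := by
    apply tendsto_nhdsWithin_of_tendsto_nhds_of_eventually_within
    · have : Tendsto (fun r : ℝ => 1 - r) (𝓝 1) (𝓝 (1 - 1)) :=
        (continuous_const.sub continuous_id).tendsto 1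
      rw [sub_self] at this
      exact this.mono_left nhdsWithin_le_nhds
    · filter_upwards [self_mem_nhdsWithin] with r hr
      exact mem_Ioi.mpr (sub_pos.mpr (mem_Iio.mp hr))
  have h2 := tendsto_inv_nhdsGT_zero.comp h1
  refine h2.congr fun r => ?_
  simp

lemma norm_mul_theta (r : ℝ) (θ₀ : T) (hr : 0 ≤ r) : ‖(r : ℂ) * (θ₀ : ℂ)‖ = r := by
  rw [norm_mul, norm_theta, mul_one, norm_real, Real.norm_eq_abs, abs_of_nonneg hr]

lemma ell_self {r : ℝ} (hr1 : r < 1) (θ₀ : T) :
    ell ((r : ℂ) * (θ₀ : ℂ)) θ₀ = Real.log (1 / (1 - r)) := by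
  have hθθ : (starRingEnd ℂ) (θ₀ : ℂ) * (θ₀ : ℂ) = 1 := by
    rw [mul_comm, Complex.mul_conj, Complex.normSq_eq_norm_sq, norm_theta]; simp
  have e : (1 : ℂ) - (starRingEnd ℂ) (θ₀ : ℂ) * ((r : ℂ) * (θ₀ : ℂ)) = ((1 - r : ℝ) : ℂ) := by
    have : (starRingEnd ℂ) (θ₀ : ℂ) * ((r : ℂ) * (θ₀ : ℂ))
        = (r : ℂ) * ((starRingEnd ℂ) (θ₀ : ℂ) * (θ₀ : ℂ)) := by ring
    rw [this, hθθ]; push_cast; ring
  simp only [ell]
  rw [e, norm_real, Real.norm_eq_abs, abs_of_pos (by linarith), one_div, Real.log_inv]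

/-- Dominated convergence computation of the mass of an atom. -/
lemma tendsto_integral_W (X : Measure T) [IsFiniteMeasure X] (θ₀ : T) :
    Tendsto (fun r : ℝ => ∫ θ, ell ((r : ℂ) * (θ₀ : ℂ)) θ / Real.log (1 / (1 - r)) ∂X)
      (𝓝[<] 1) (𝓝 (X.real {θ₀})) := by
  have hL := tendsto_L
  have hev : ∀ᶠ r : ℝ in 𝓝[<] 1, (1 / 2 : ℝ) < r ∧ r < 1 := by
    have : Ioo (1 / 2 : ℝ) 1 ∈ 𝓝[<] (1 : ℝ) := Ioo_mem_nhdsLT (by norm_num)
    filter_upwards [this] with r hr using hr
  have hlim : (X.real {θ₀}) = ∫ θ, ({θ₀} : Set T).indicator (fun _ => (1 : ℝ)) θ ∂X := by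
    rw [integral_indicator (measurableSet_singleton θ₀), setIntegral_const]
    simp
  rw [hlim]
  have hLpos : ∀ r : ℝ, (1 / 2 : ℝ) < r → r < 1 → Real.log 2 ≤ Real.log (1 / (1 - r)) := by
    intro r h1 h2
    apply Real.log_le_log (by norm_num)
    rw [le_div_iff₀ (by linarith)]
    linarith
  have hlog2 : 0 < Real.log 2 := Real.log_pos (by norm_num)
  apply tendsto_integral_filter_of_dominated_convergence (fun _ => (1 : ℝ))
  · filter_upwards [hev] with r hr
    have hz : ‖(r : ℂ) * (θ₀ : ℂ)‖ < 1 := by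
      rw [norm_mul_theta r θ₀ (by linarith)]; exact hr.2
    exact ((continuous_ell hz).div_const _).aestronglyMeasurable
  · filter_upwards [hev] with r hr
    refine Eventually.of_forall fun θ => ?_
    have hr0 : 0 ≤ r := by linarith [hr.1]
    have hz : ‖(r : ℂ) * (θ₀ : ℂ)‖ < 1 := by
      rw [norm_mul_theta r θ₀ hr0]; exact hr.2
    have h1 := ell_lower θ hz
    have h2 := ell_upper θ hz
    rw [norm_mul_theta r θ₀ hr0] at h2
    have h3 := hLpos r hr.1 hr.2
    have hLp : 0 < Real.log (1 / (1 - r)) := by linarith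
    rw [norm_div, Real.norm_eq_abs, Real.norm_eq_abs, abs_of_pos hLp, div_le_one hLp, abs_le]
    constructor <;> linarith
  · exact integrable_const _
  · refine Eventually.of_forall fun θ => ?_
    by_cases hθ : θ = θ₀
    · subst hθ
      have hval : ({θ} : Set T).indicator (fun _ => (1 : ℝ)) θ = 1 := by simp
      rw [hval]
      apply tendsto_const_nhds.congr'
      filter_upwards [hev] with r hr
      have h3 := hLpos r hr.1 hr.2
      have hLp : 0 < Real.log (1 / (1 - r)) := by linarith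
      rw [ell_self hr.2, div_self hLp.ne']
    · have hval : ({θ₀} : Set T).indicator (fun _ => (1 : ℝ)) θ = 0 := by simp [hθ]
      rw [hval]
      have hd : 0 < ‖(θ : ℂ) - θ₀‖ := by
        rw [norm_pos_iff, sub_ne_zero]
        exact fun h => hθ (Subtype.ext h)
      set D : ℝ := max (Real.log 2) (Real.log (2 / ‖(θ : ℂ) - θ₀‖)) with hD
      have hbd : ∀ᶠ r : ℝ in 𝓝[<] 1,
          ‖ell ((r : ℂ) * (θ₀ : ℂ)) θ / Real.log (1 / (1 - r))‖ ≤ D / Real.log (1 / (1 - r)) := by
        filter_upwards [hev] with r hr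
        have hr0 : 0 ≤ r := by linarith [hr.1]
        have hz : ‖(r : ℂ) * (θ₀ : ℂ)‖ < 1 := by
          rw [norm_mul_theta r θ₀ hr0]; exact hr.2
        have h3 := hLpos r hr.1 hr.2
        have hLp : 0 < Real.log (1 / (1 - r)) := by linarith
        rw [norm_div, Real.norm_eq_abs, Real.norm_eq_abs, abs_of_pos hLp]
        apply div_le_div_of_nonneg_right _ hLp.le
        rw [abs_le]
        constructor
        · have := ell_lower θ hz
          have h4 := le_max_left (Real.log 2) (Real.log (2 / ‖(θ : ℂ) - θ₀‖))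
          linarith
        · have h5 := kernel_far θ θ₀ hr0 hr.2.le
          have h6 := Real.log_le_log (by positivity) h5
          have h7 : Real.log (‖(θ : ℂ) - θ₀‖ / 2) = - Real.log (2 / ‖(θ : ℂ) - θ₀‖) := by
            rw [← Real.log_inv, inv_div]
          simp only [ell]
          have h8 := le_max_right (Real.log 2) (Real.log (2 / ‖(θ : ℂ) - θ₀‖))
          linarith
      have hzero : Tendsto (fun r : ℝ => D / Real.log (1 / (1 - r))) (𝓝[<] 1) (𝓝 0) :=
        tendsto_const_nhds.div_atTop hL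
      exact squeeze_zero_norm' hbd hzero

/-- Atom bound from logarithmic growth of the potential along a radius. -/
theorem atom_bound (A B : Measure T) [IsFiniteMeasure A] [IsFiniteMeasure B] (θ₀ : T) {m C : ℝ}
    (h : ∀ r : ℝ, 0 < r → r < 1 →
      ∫ θ, ell ((r : ℂ) * (θ₀ : ℂ)) θ ∂A - ∫ θ, ell ((r : ℂ) * (θ₀ : ℂ)) θ ∂B
        ≤ m * Real.log (1 / (1 - r)) + C) :
    A.real {θ₀} - B.real {θ₀} ≤ m := by
  have h1 := (tendsto_integral_W A θ₀).sub (tendsto_integral_W B θ₀)
  have hL := tendsto_L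
  have h2 : Tendsto (fun r : ℝ => m + C / Real.log (1 / (1 - r))) (𝓝[<] 1) (𝓝 (m + 0)) :=
    tendsto_const_nhds.add (tendsto_const_nhds.div_atTop hL)
  rw [add_zero] at h2
  apply le_of_tendsto_of_tendsto h1 h2
  have hev : ∀ᶠ r : ℝ in 𝓝[<] 1, (0 : ℝ) < r ∧ r < 1 ∧ 0 < Real.log (1 / (1 - r)) := by
    have h3 : Ioo (0 : ℝ) 1 ∈ 𝓝[<] (1 : ℝ) := Ioo_mem_nhdsLT (by norm_num)
    have h4 := hL.eventually (eventually_gt_atTop 0)
    filter_upwards [h3, h4] with r hr hr2
    exact ⟨hr.1, hr.2, hr2⟩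
  filter_upwards [hev] with r hr
  obtain ⟨hr0, hr1, hLp⟩ := hr
  rw [integral_div, integral_div, ← sub_div, div_le_iff₀ hLp, add_mul, div_mul_cancel₀ _ hLp.ne']
  exact h r hr0 hr1

/-- Jordan decomposition in a form convenient for integrals. -/
lemma jordan_decomp (μ ν : Measure T) [IsFiniteMeasure μ] [IsFiniteMeasure ν] :
    ∃ A B : Measure T, IsFiniteMeasure A ∧ IsFiniteMeasure B ∧ A.MutuallySingular B ∧ μ + B = ν + A := by
  set s := μ.toSignedMeasure - ν.toSignedMeasure with hs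
  set j := s.toJordanDecomposition with hj
  refine ⟨j.posPart, j.negPart, j.posPart_finite, j.negPart_finite, j.mutuallySingular, ?_⟩
  have := j.posPart_finite
  have := j.negPart_finite
  apply Measure.ext
  intro E hE
  have h1 : j.toSignedMeasure = s := SignedMeasure.toSignedMeasure_toJordanDecomposition s
  have h2 : j.toSignedMeasure E = s E := by rw [h1]
  rw [hs] at h2
  simp only [JordanDecomposition.toSignedMeasure, VectorMeasure.sub_apply,
    Measure.toSignedMeasure_apply_measurable hE] at h2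
  simp only [Measure.add_apply]
  have h3 : (μ E + j.negPart E).toReal = (ν E + j.posPart E).toReal := by
    rw [ENNReal.toReal_add (measure_ne_top _ _) (measure_ne_top _ _),
      ENNReal.toReal_add (measure_ne_top _ _) (measure_ne_top _ _)]
    simp only [Measure.real] at h2
    linarith
  exact (ENNReal.toReal_eq_toReal_iff' (by simp) (by simp)).mp h3

lemma integral_jordan {μ ν A B : Measure T} [IsFiniteMeasure μ] [IsFiniteMeasure ν]
    [IsFiniteMeasure A] [IsFiniteMeasure B] (h : μ + B = ν + A) {g : T → ℂ}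
    (hg : Continuous g) : (∫ θ, g θ ∂μ) - ∫ θ, g θ ∂ν = (∫ θ, g θ ∂A) - ∫ θ, g θ ∂B := by
  obtain ⟨C, hC⟩ := (isCompact_univ (X := T)).exists_bound_of_continuousOn hg.continuousOn
  have hint : ∀ X : Measure T, ∀ [IsFiniteMeasure X], Integrable g X := fun X _ =>
    Integrable.of_bound hg.aestronglyMeasurable C (Eventually.of_forall fun θ => hC θ (mem_univ _))
  have h1 := integral_add_measure (hint μ) (hint B)
  have h2 := integral_add_measure (hint ν) (hint A)
  rw [h] at h1
  rw [h1] at h2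
  linear_combination h2

end Vale.Agent.Lib.P142
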