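import Mathlib

open Complex Metric Set Filter Topology

namespace Vale.Agent.Lib.P142

/-- A holomorphic function injective on an open set has nonvanishing derivative there. -/
theorem deriv_ne_zero_of_injOn {U : Set ℂ} (hU : IsOpen U) {f : ℂ → ℂ}
    (hf : DifferentiableOn ℂ f U) (hinj : InjOn f U) {z₀ : ℂ} (hz₀ : z₀ ∈ U) :
    deriv f z₀ ≠ 0 := by
  intro hd
  have hAn : AnalyticAt ℂ f z₀ := hf.analyticAt (hU.mem_nhds hz₀)
  set g : ℂ → ℂ := fun z => f z - f z₀ with hg
  have hgAn : AnalyticAt ℂ g z₀ := hAn.sub analyticAt_const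
  have hg0 : g z₀ = 0 := by simp [hg]
  -- the order of vanishing is finite
  have hordne : analyticOrderAt g z₀ ≠ ⊤ := by
    intro htop
    rw [analyticOrderAt_eq_top] at htop
    -- then g vanishes near z₀, contradiction with injectivity
    have hev : ∀ᶠ z in 𝓝[≠] z₀, g z = 0 := htop.filter_mono nhdsWithin_le_nhds
    have hmem : ∀ᶠ z in 𝓝[≠] z₀, z ∈ U := (hU.mem_nhds hz₀ |> mem_nhdsWithin_of_mem_nhds)
    have hne : ∀ᶠ z in 𝓝[≠] z₀, z ≠ z₀ := eventually_mem_nhdsWithin
    obtain ⟨z, hz1, hz2, hz3⟩ := (hev.and (hmem.and hne)).exists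
    apply hz3
    apply hinj hz2 hz₀
    simp only [hg] at hz1
    exact sub_eq_zero.mp hz1
  obtain ⟨n, hn⟩ := ENat.ne_top_iff_exists.mp hordne
  obtain ⟨q, hqAn, hq0, hqfac⟩ := (hgAn.analyticOrderAt_eq_natCast).mp hn.symm
  -- n ≥ 2
  have hn0 : n ≠ 0 := by
    rintro rfl
    have : g z₀ = q z₀ := by
      have := hqfac.self_of_nhds
      simpa using this
    rw [hg0] at this
    exact hq0 this.symm
  have hn1 : n ≠ 1 := by
    rintro rfl
    have hderiv : deriv g z₀ = q z₀ := by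
      have hdq : DifferentiableAt ℂ q z₀ := hqAn.differentiableAt
      have h1 : deriv g z₀ = deriv (fun z => (z - z₀) ^ 1 • q z) z₀ := by
        apply Filter.EventuallyEq.deriv_eq
        exact hqfac
      rw [h1]
      have h2 : HasDerivAt (fun z : ℂ => (z - z₀) ^ 1 • q z)
          ((1 : ℂ) * q z₀ + (z₀ - z₀) ^ 1 * deriv q z₀) z₀ := by
        have h3 : HasDerivAt (fun z : ℂ => (z - z₀) ^ 1) 1 z₀ := by
          simpa using (hasDerivAt_id z₀).sub_const z₀
        simpa using h3.fun_mul hdq.hasDerivAt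
      simpa using h2.deriv
    have h3 : deriv g z₀ = deriv f z₀ := by
      simp [hg]
    rw [h3, hd] at hderiv
    exact hq0 hderiv.symm
  have hn2 : 1 < n := by omega
  -- local n-th root of q
  obtain ⟨c, hc⟩ : ∃ c : ℂ, c ^ n = q z₀ := IsAlgClosed.exists_pow_nat_eq (q z₀) (by omega)
  have hc0 : c ≠ 0 := by
    rintro rfl
    rw [zero_pow hn0] at hc
    exact hq0 hc.symm
  set r : ℂ → ℂ := fun z => c * exp (log (q z / q z₀) / n) with hr
  have hslit : q z₀ / q z₀ ∈ slitPlane := by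
    rw [div_self hq0]; exact one_mem_slitPlane
  have hlogAn : AnalyticAt ℂ (fun z => log (q z / q z₀)) z₀ :=
    (hqAn.div analyticAt_const hq0).clog hslit
  have hrAn : AnalyticAt ℂ r z₀ :=
    analyticAt_const.mul ((hlogAn.div analyticAt_const (by exact_mod_cast hn0)).cexp)
  have hrz₀ : r z₀ = c := by simp [hr, div_self hq0]
  -- r^n = q near z₀
  have hcontq : ContinuousAt (fun z => q z / q z₀) z₀ :=
    (hqAn.div analyticAt_const hq0).continuousAt
  have hevslit : ∀ᶠ z in 𝓝 z₀, q z / q z₀ ∈ slitPlane :=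
    hcontq.eventually (isOpen_slitPlane.mem_nhds hslit)
  have hrpow : ∀ᶠ z in 𝓝 z₀, r z ^ n = q z := by
    filter_upwards [hevslit] with z hz
    have hz0 : q z / q z₀ ≠ 0 := slitPlane_ne_zero hz
    simp only [hr, mul_pow, hc]
    rw [← Complex.exp_nat_mul, mul_div_cancel₀ _ (by exact_mod_cast hn0), exp_log hz0]
    field_simp
  -- φ
  set φ : ℂ → ℂ := fun z => (z - z₀) * r z with hφ
  have hφAn : AnalyticAt ℂ φ z₀ := (analyticAt_id.sub analyticAt_const).mul hrAn
  have hφ0 : φ z₀ = 0 := by simp [hφ]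
  have hφd : HasDerivAt φ c z₀ := by
    have h1 : HasDerivAt (fun z : ℂ => z - z₀) 1 z₀ := (hasDerivAt_id z₀).sub_const z₀
    have h2 := h1.fun_mul hrAn.differentiableAt.hasDerivAt
    simpa [hrz₀] using h2
  have hφs : HasStrictDerivAt φ c z₀ := by
    have := hφAn.hasStrictDerivAt
    rwa [hφd.deriv] at this
  have hmap : map φ (𝓝 z₀) = 𝓝 (φ z₀) := hφs.map_nhds_eq hc0
  rw [hφ0] at hmap
  -- the neighbourhood
  have hV : ∀ᶠ z in 𝓝 z₀, z ∈ U ∧ g z = φ z ^ n := by
    filter_upwards [hU.mem_nhds hz₀, hqfac, hrpow] with z hz1 hz2 hz3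
    refine ⟨hz1, ?_⟩
    rw [hz2]
    simp only [hφ, mul_pow, hz3, smul_eq_mul]
  have himg : φ '' {z | z ∈ U ∧ g z = φ z ^ n} ∈ 𝓝 (0 : ℂ) := by
    rw [← hmap]
    exact image_mem_map hV
  obtain ⟨ε, hε, hball⟩ := Metric.mem_nhds_iff.mp himg
  set a : ℂ := ((ε / 2 : ℝ) : ℂ) with ha
  have ha0 : a ≠ 0 := by
    simp only [ha]; exact_mod_cast (by positivity : ε / 2 ≠ 0)
  have hanorm : ‖a‖ < ε := by
    simp only [ha, Complex.norm_real, Real.norm_eq_abs, abs_of_pos (half_pos hε)]
    linarith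
  set ζ : ℂ := exp (2 * Real.pi * I / n) with hζ
  have hprim : IsPrimitiveRoot ζ n := Complex.isPrimitiveRoot_exp n hn0
  have hζn : ζ ^ n = 1 := hprim.pow_eq_one
  have hζ1 : ζ ≠ 1 := hprim.ne_one hn2
  have hζnorm : ‖ζ‖ = 1 := by
    exact Complex.norm_eq_one_of_pow_eq_one hζn hn0
  obtain ⟨z₁, ⟨hz₁U, hz₁g⟩, hz₁⟩ := hball (show a ∈ ball (0 : ℂ) ε by simpa using hanorm)
  obtain ⟨z₂, ⟨hz₂U, hz₂g⟩, hz₂⟩ := hball (show a * ζ ∈ ball (0 : ℂ) ε by
    simpa [hζnorm] using hanorm)
  have hfeq : f z₁ = f z₂ := by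
    have h1 : g z₁ = g z₂ := by
      rw [hz₁g, hz₂g, hz₁, hz₂, mul_pow, hζn, mul_one]
    simp only [hg] at h1
    exact sub_left_inj.mp h1
  have hzeq : z₁ = z₂ := hinj hz₁U hz₂U hfeq
  rw [hzeq, hz₂] at hz₁
  have : a * ζ = a * 1 := by rw [hz₁, mul_one]
  exact hζ1 (mul_left_cancel₀ ha0 this)

/-- Winding integral of an injective holomorphic function around an interior value. -/
theorem circleIntegral_logDeriv_of_mem {h : ℂ → ℂ} (hh : DifferentiableOn ℂ h (ball 0 1))
    (hinj : InjOn h (ball 0 1)) {ρ : ℝ} (hρ0 : 0 < ρ) (hρ1 : ρ < 1) {v₀ : ℂ}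
    (hv₀ : v₀ ∈ ball (0 : ℂ) ρ) :
    (∮ v in C(0, ρ), deriv h v / (h v - h v₀)) = 2 * Real.pi * I := by
  have hsub : closedBall (0 : ℂ) ρ ⊆ ball (0 : ℂ) 1 := closedBall_subset_ball hρ1
  have hv1 : v₀ ∈ ball (0 : ℂ) 1 := hsub (ball_subset_closedBall hv₀)
  set q : ℂ → ℂ := dslope h v₀ with hq
  have hqd : DifferentiableOn ℂ q (ball 0 1) :=
    (differentiableOn_dslope (isOpen_ball.mem_nhds hv1)).2 hh
  have hid : ∀ z, h z = h v₀ + (z - v₀) * q z := by
    intro z
    have := sub_smul_dslope h v₀ z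
    simp only [smul_eq_mul] at this
    rw [hq, this]; ring
  have hqne : ∀ v ∈ ball (0 : ℂ) 1, q v ≠ 0 := by
    intro v hv h0
    by_cases hvv : v = v₀
    · subst hvv
      rw [hq, dslope_same] at h0
      exact deriv_ne_zero_of_injOn isOpen_ball hh hinj hv h0
    · have h1 := hid v
      rw [h0, mul_zero, add_zero] at h1
      exact hvv (hinj hv hv1 h1)
  have hqd' : DifferentiableOn ℂ (deriv q) (ball 0 1) := hqd.deriv isOpen_ball
  have hF : DifferentiableOn ℂ (fun v => deriv q v / q v) (ball 0 1) :=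
    hqd'.div hqd hqne
  have hcongr : EqOn (fun v => deriv h v / (h v - h v₀)) (fun v => (v - v₀)⁻¹ + deriv q v / q v)
      (sphere (0 : ℂ) ρ) := by
    intro v hv
    have hvb : v ∈ ball (0 : ℂ) 1 := hsub (sphere_subset_closedBall hv)
    have hne : v - v₀ ≠ 0 := by
      intro h0
      have : v = v₀ := sub_eq_zero.mp h0
      subst this
      rw [mem_sphere_zero_iff_norm] at hv
      rw [mem_ball_zero_iff] at hv₀
      linarith
    have hdq : DifferentiableAt ℂ q v := hqd.differentiableAt (isOpen_ball.mem_nhds hvb)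
    have hderiv : deriv h v = q v + (v - v₀) * deriv q v := by
      have h1 : HasDerivAt (fun z => h v₀ + (z - v₀) * q z)
          (1 * q v + (v - v₀) * deriv q v) v :=
        (((hasDerivAt_id v).sub_const v₀).fun_mul hdq.hasDerivAt).const_add _
      have h2 : h = fun z => h v₀ + (z - v₀) * q z := funext hid
      rw [h2, h1.deriv, one_mul]
    have hq0 := hqne v hvb
    simp only
    rw [hderiv]
    have : h v - h v₀ = (v - v₀) * q v := by rw [hid v]; ring
    rw [this]
    field_simp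
  rw [circleIntegral.integral_congr hρ0.le hcongr]
  have hcontF : ContinuousOn (fun v => deriv q v / q v) (closedBall (0 : ℂ) ρ) :=
    hF.continuousOn.mono hsub
  have hI1 : CircleIntegrable (fun v => (v - v₀)⁻¹) 0 ρ := by
    apply ContinuousOn.circleIntegrable hρ0.le
    apply ContinuousOn.inv₀ (by fun_prop)
    intro v hv h0
    have : v = v₀ := sub_eq_zero.mp h0
    subst this
    rw [mem_sphere_zero_iff_norm] at hv
    rw [mem_ball_zero_iff] at hv₀
    linarith
  have hI2 : CircleIntegrable (fun v => deriv q v / q v) 0 ρ :=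
    ContinuousOn.circleIntegrable hρ0.le (hcontF.mono sphere_subset_closedBall)
  rw [circleIntegral.integral_add hI1 hI2, circleIntegral.integral_sub_inv_of_mem_ball hv₀]
  have hzero : (∮ v in C(0, ρ), deriv q v / q v) = 0 :=
    Complex.circleIntegral_eq_zero_of_differentiable_on_off_countable hρ0.le
      Set.countable_empty hcontF
      (fun z hz => hF.differentiableAt (isOpen_ball.mem_nhds (hsub (ball_subset_closedBall hz.1))))
  rw [hzero, add_zero]

/-- Winding integral of a holomorphic function around an omitted value vanishes. -/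
theorem circleIntegral_logDeriv_of_notMem {h : ℂ → ℂ} (hh : DifferentiableOn ℂ h (ball 0 1))
    {ρ : ℝ} (hρ0 : 0 < ρ) (hρ1 : ρ < 1) {c : ℂ}
    (hc : ∀ v ∈ closedBall (0 : ℂ) ρ, h v ≠ c) :
    (∮ v in C(0, ρ), deriv h v / (h v - c)) = 0 := by
  have hsub : closedBall (0 : ℂ) ρ ⊆ ball (0 : ℂ) 1 := closedBall_subset_ball hρ1
  have hopen : IsOpen (ball (0 : ℂ) 1) := isOpen_ball
  have hd' : DifferentiableOn ℂ (deriv h) (ball 0 1) := hh.deriv hopen
  have hcont : ContinuousOn (fun v => deriv h v / (h v - c)) (closedBall (0 : ℂ) ρ) := by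
    apply ContinuousOn.div (hd'.continuousOn.mono hsub)
      ((hh.continuousOn.mono hsub).sub continuousOn_const)
    intro v hv
    exact sub_ne_zero.mpr (hc v hv)
  apply Complex.circleIntegral_eq_zero_of_differentiable_on_off_countable hρ0.le
    Set.countable_empty hcont
  intro z hz
  have hz' : z ∈ closedBall (0 : ℂ) ρ := ball_subset_closedBall hz.1
  have hz1 : z ∈ ball (0 : ℂ) 1 := hsub hz'
  apply DifferentiableAt.div
    (hd'.differentiableAt (hopen.mem_nhds hz1))
    ((hh.differentiableAt (hopen.mem_nhds hz1)).sub (differentiableAt_const _))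
    (sub_ne_zero.mpr (hc z hz'))

end Vale.Agent.Lib.P142
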