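import Vale.Agent.Lib.P142.Koebe

open Complex Metric Set Filter Topology MeasureTheory

namespace Vale.Agent.Lib.P142

/-- Second-derivative bound at the origin for an arbitrary injective holomorphic function. -/
theorem second_deriv_bound {g : ℂ → ℂ} (hg : DifferentiableOn ℂ g (ball 0 1))
    (hinj : InjOn g (ball 0 1)) : ‖deriv (deriv g) 0‖ ≤ 4 * ‖deriv g 0‖ := by
  have h0mem : (0 : ℂ) ∈ ball (0 : ℂ) 1 := mem_ball_self one_pos
  have hd0 : deriv g 0 ≠ 0 := deriv_ne_zero_of_injOn isOpen_ball hg hinj h0mem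
  set c := deriv g 0 with hc
  set f : ℂ → ℂ := fun z => (g z - g 0) / c with hf
  have hfd : DifferentiableOn ℂ f (ball 0 1) := (hg.sub (differentiableOn_const _)).div_const c
  have hfinj : InjOn f (ball 0 1) := by
    intro a ha b hb hab
    simp only [hf] at hab
    have h1 : g a - g 0 = g b - g 0 := by
      field_simp at hab
      exact hab
    exact hinj ha hb (sub_left_inj.mp h1)
  have hf0 : f 0 = 0 := by simp [hf]
  have hderiv : ∀ z ∈ ball (0 : ℂ) 1, deriv f z = deriv g z / c := by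
    intro z hz
    have hgz : DifferentiableAt ℂ g z := hg.differentiableAt (isOpen_ball.mem_nhds hz)
    exact ((hgz.hasDerivAt.sub_const (g 0)).div_const c).deriv
  have hf1 : deriv f 0 = 1 := by
    rw [hderiv 0 h0mem]; exact div_self hd0
  have hg' : DifferentiableOn ℂ (deriv g) (ball 0 1) := hg.deriv isOpen_ball
  have hderiv2 : deriv (deriv f) 0 = deriv (deriv g) 0 / c := by
    have h1 : deriv f =ᶠ[𝓝 0] fun z => deriv g z / c := by
      filter_upwards [isOpen_ball.mem_nhds h0mem] with z hz using hderiv z hz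
    rw [h1.deriv_eq]
    have hgz : DifferentiableAt ℂ (deriv g) 0 := hg'.differentiableAt (isOpen_ball.mem_nhds h0mem)
    exact (hgz.hasDerivAt.div_const c).deriv
  have hb := bieberbach_normalized hfd hfinj hf0 hf1
  rw [hderiv2, norm_div] at hb
  have hcn : 0 < ‖c‖ := norm_pos_iff.mpr hd0
  rwa [div_le_iff₀ hcn] at hb

/-- The Mobius automorphism of the disc sending the origin to a. -/
noncomputable def tau (a ζ : ℂ) : ℂ := (ζ + a) / (1 + (starRingEnd ℂ) a * ζ)

lemma tau_den_ne {a ζ : ℂ} (ha : ‖a‖ < 1) (hζ : ‖ζ‖ < 1) : 1 + (starRingEnd ℂ) a * ζ ≠ 0 := by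
  intro h0
  have h1 : (starRingEnd ℂ) a * ζ = -1 := by linear_combination h0
  have h2 : ‖(starRingEnd ℂ) a * ζ‖ = 1 := by rw [h1]; simp
  rw [norm_mul, RCLike.norm_conj] at h2
  nlinarith [norm_nonneg a, norm_nonneg ζ]

lemma tau_mem {a ζ : ℂ} (ha : ‖a‖ < 1) (hζ : ‖ζ‖ < 1) : ‖tau a ζ‖ < 1 := by
  have hden := tau_den_ne ha hζ
  have hpos : 0 < ‖1 + (starRingEnd ℂ) a * ζ‖ := norm_pos_iff.mpr hden
  rw [tau, norm_div, div_lt_one hpos]
  -- compare squares
  have h1 : ‖ζ + a‖ ^ 2 < ‖1 + (starRingEnd ℂ) a * ζ‖ ^ 2 := by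
    have e1 : ‖ζ + a‖ ^ 2 = normSq (ζ + a) := (Complex.normSq_eq_norm_sq _).symm
    have e2 : ‖1 + (starRingEnd ℂ) a * ζ‖ ^ 2 = normSq (1 + (starRingEnd ℂ) a * ζ) :=
      (Complex.normSq_eq_norm_sq _).symm
    have e3 : ‖a‖ ^ 2 = normSq a := (Complex.normSq_eq_norm_sq _).symm
    have e4 : ‖ζ‖ ^ 2 = normSq ζ := (Complex.normSq_eq_norm_sq _).symm
    have hA : normSq a < 1 := by
      rw [← e3]; nlinarith [norm_nonneg a]
    have hB : normSq ζ < 1 := by
      rw [← e4]; nlinarith [norm_nonneg ζ]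
    have key : normSq (1 + (starRingEnd ℂ) a * ζ) - normSq (ζ + a)
        = (1 - normSq a) * (1 - normSq ζ) := by
      simp only [normSq_apply, add_re, add_im, mul_re, mul_im, conj_re, conj_im, one_re, one_im]
      ring
    rw [e1, e2]
    have : 0 < (1 - normSq a) * (1 - normSq ζ) := mul_pos (by linarith) (by linarith)
    linarith
  exact lt_of_pow_lt_pow_left₀ 2 (norm_nonneg _) h1

lemma tau_inj {a : ℂ} (ha : ‖a‖ < 1) {x y : ℂ} (hx : ‖x‖ < 1) (hy : ‖y‖ < 1)
    (h : tau a x = tau a y) : x = y := by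
  have hdx := tau_den_ne ha hx
  have hdy := tau_den_ne ha hy
  simp only [tau] at h
  rw [div_eq_div_iff hdx hdy] at h
  have h1 : (x - y) * (1 - (starRingEnd ℂ) a * a) = 0 := by linear_combination h
  have h2 : (1 : ℂ) - (starRingEnd ℂ) a * a ≠ 0 := by
    rw [mul_comm, Complex.mul_conj, Complex.normSq_eq_norm_sq]
    intro h0
    have : ‖a‖ ^ 2 = 1 := by
      have : ((‖a‖ ^ 2 : ℝ) : ℂ) = 1 := by linear_combination -h0
      exact_mod_cast this
    nlinarith [norm_nonneg a]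
  rcases mul_eq_zero.mp h1 with h3 | h3
  · exact sub_eq_zero.mp h3
  · exact absurd h3 h2

/-- derivative of tau -/
lemma hasDerivAt_tau {a ζ : ℂ} (hd : 1 + (starRingEnd ℂ) a * ζ ≠ 0) :
    HasDerivAt (tau a) ((1 - (starRingEnd ℂ) a * a) / (1 + (starRingEnd ℂ) a * ζ) ^ 2) ζ := by
  have h1 : HasDerivAt (fun z : ℂ => z + a) 1 ζ := (hasDerivAt_id ζ).add_const a
  have h2 : HasDerivAt (fun z : ℂ => 1 + (starRingEnd ℂ) a * z) ((starRingEnd ℂ) a) ζ := by
    simpa using ((hasDerivAt_id ζ).const_mul ((starRingEnd ℂ) a)).const_add 1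
  have h3 := h1.fun_div h2 hd
  have e : (1 * (1 + (starRingEnd ℂ) a * ζ) - (ζ + a) * (starRingEnd ℂ) a) /
      (1 + (starRingEnd ℂ) a * ζ) ^ 2
      = (1 - (starRingEnd ℂ) a * a) / (1 + (starRingEnd ℂ) a * ζ) ^ 2 := by
    congr 1; ring
  rw [e] at h3
  exact h3

/-- **Koebe's pre-Schwarzian inequality.** -/
theorem preschwarzian_bound {f : ℂ → ℂ} (hf : DifferentiableOn ℂ f (ball 0 1))
    (hinj : InjOn f (ball 0 1)) {a : ℂ} (ha : ‖a‖ < 1) :
    ‖(1 - ‖a‖ ^ 2) * deriv (deriv f) a - 2 * (starRingEnd ℂ) a * deriv f a‖ ≤ 4 * ‖deriv f a‖ := by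
  have hamem : a ∈ ball (0 : ℂ) 1 := by simpa using ha
  have h0mem : (0 : ℂ) ∈ ball (0 : ℂ) 1 := mem_ball_self one_pos
  have htau0 : tau a 0 = a := by simp [tau]
  set σ : ℂ := 1 - (starRingEnd ℂ) a * a with hσ
  have hσreal : σ = ((1 - ‖a‖ ^ 2 : ℝ) : ℂ) := by
    simp only [hσ]
    rw [mul_comm, Complex.mul_conj, Complex.normSq_eq_norm_sq]
    push_cast; ring
  have hσpos : 0 < 1 - ‖a‖ ^ 2 := by nlinarith [norm_nonneg a]
  have hσne : σ ≠ 0 := by
    rw [hσreal]; exact_mod_cast hσpos.ne'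
  set G : ℂ → ℂ := fun ζ => f (tau a ζ) with hG
  have hmaps : MapsTo (tau a) (ball 0 1) (ball 0 1) := by
    intro ζ hζ
    have : ‖ζ‖ < 1 := by simpa using hζ
    simpa using tau_mem ha this
  have hτd : DifferentiableOn ℂ (tau a) (ball 0 1) := by
    intro ζ hζ
    have : ‖ζ‖ < 1 := by simpa using hζ
    exact (hasDerivAt_tau (tau_den_ne ha this)).differentiableAt.differentiableWithinAt
  have hGd : DifferentiableOn ℂ G (ball 0 1) := hf.comp hτd hmaps
  have hGinj : InjOn G (ball 0 1) := by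
    intro x hx y hy hxy
    have hx' : ‖x‖ < 1 := by simpa using hx
    have hy' : ‖y‖ < 1 := by simpa using hy
    exact tau_inj ha hx' hy' (hinj (hmaps hx) (hmaps hy) hxy)
  have hbound := second_deriv_bound hGd hGinj
  have hf' : DifferentiableOn ℂ (deriv f) (ball 0 1) := hf.deriv isOpen_ball
  -- derivative of G
  have hGderiv : ∀ ζ ∈ ball (0 : ℂ) 1, deriv G ζ =
      deriv f (tau a ζ) * (σ / (1 + (starRingEnd ℂ) a * ζ) ^ 2) := by
    intro ζ hζ
    have hζ' : ‖ζ‖ < 1 := by simpa using hζ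
    have h1 := hasDerivAt_tau (a := a) (tau_den_ne ha hζ')
    have h2 : HasDerivAt f (deriv f (tau a ζ)) (tau a ζ) :=
      (hf.differentiableAt (isOpen_ball.mem_nhds (hmaps hζ))).hasDerivAt
    exact (h2.comp ζ h1).deriv
  have hG'0 : deriv G 0 = deriv f a * σ := by
    rw [hGderiv 0 h0mem, htau0]; simp
  have hG''0 : deriv (deriv G) 0 = deriv (deriv f) a * σ * σ + deriv f a * (-2 * (starRingEnd ℂ) a * σ) := by
    have h1 : deriv G =ᶠ[𝓝 0] fun ζ => deriv f (tau a ζ) * (σ / (1 + (starRingEnd ℂ) a * ζ) ^ 2) := by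
      filter_upwards [isOpen_ball.mem_nhds h0mem] with z hz using hGderiv z hz
    rw [h1.deriv_eq]
    have hd0 : (1 : ℂ) + (starRingEnd ℂ) a * 0 ≠ 0 := by simp
    have hτ0 := hasDerivAt_tau (a := a) hd0
    have h2 : HasDerivAt (deriv f) (deriv (deriv f) (tau a 0)) (tau a 0) := by
      rw [htau0]
      exact (hf'.differentiableAt (isOpen_ball.mem_nhds hamem)).hasDerivAt
    have h3 := h2.comp (0 : ℂ) hτ0
    -- derivative of the second factor
    have hq : HasDerivAt (fun z : ℂ => 1 + (starRingEnd ℂ) a * z) ((starRingEnd ℂ) a) 0 := by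
      simpa using ((hasDerivAt_id (0 : ℂ)).const_mul ((starRingEnd ℂ) a)).const_add 1
    have hq2 : HasDerivAt (fun z : ℂ => (1 + (starRingEnd ℂ) a * z) ^ 2)
        (2 * (1 + (starRingEnd ℂ) a * 0) ^ 1 * (starRingEnd ℂ) a) 0 := by
      simpa using hq.fun_pow 2
    have hq3 : HasDerivAt (fun z : ℂ => σ / (1 + (starRingEnd ℂ) a * z) ^ 2)
        (-2 * (starRingEnd ℂ) a * σ) 0 := by
      have := (hasDerivAt_const (0 : ℂ) σ).fun_div hq2 (pow_ne_zero 2 hd0)
      simp only [mul_zero, add_zero, one_pow, mul_one, zero_sub, div_one] at this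
      have e : -(σ * (2 * (starRingEnd ℂ) a)) = -2 * (starRingEnd ℂ) a * σ := by ring
      rwa [e] at this
    have h4 := h3.fun_mul hq3
    have h5 : deriv (fun ζ => deriv f (tau a ζ) * (σ / (1 + (starRingEnd ℂ) a * ζ) ^ 2)) 0 = _ :=
      h4.deriv
    rw [h5, htau0]
    simp only [Function.comp_apply, htau0, mul_zero, add_zero, one_pow, div_one]
    rw [← hσ]
  rw [hG''0, hG'0] at hbound
  have hsimp : deriv (deriv f) a * σ * σ + deriv f a * (-2 * (starRingEnd ℂ) a * σ)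
      = σ * (σ * deriv (deriv f) a - 2 * (starRingEnd ℂ) a * deriv f a) := by ring
  rw [hsimp, norm_mul, norm_mul, mul_comm (‖deriv f a‖)] at hbound
  have hσn : 0 < ‖σ‖ := norm_pos_iff.mpr hσne
  have : ‖σ * deriv (deriv f) a - 2 * (starRingEnd ℂ) a * deriv f a‖ ≤ 4 * ‖deriv f a‖ := by
    have h6 : ‖σ‖ * ‖σ * deriv (deriv f) a - 2 * (starRingEnd ℂ) a * deriv f a‖
        ≤ ‖σ‖ * (4 * ‖deriv f a‖) := by
      calc _ ≤ 4 * (‖σ‖ * ‖deriv f a‖) := hbound
        _ = _ := by ring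
    exact le_of_mul_le_mul_left h6 hσn
  have e : ((1 - ‖a‖ ^ 2 : ℝ) : ℂ) = σ := hσreal.symm
  have e2 : (1 - (‖a‖ : ℂ) ^ 2) = σ := by rw [← e]; push_cast; ring
  rw [e2]
  exact this

/-- derivative of the logarithm of the norm along a curve -/
lemma hasDerivAt_log_norm {g : ℝ → ℂ} {g' : ℂ} {t : ℝ} (hg : HasDerivAt g g' t) (h0 : g t ≠ 0) :
    HasDerivAt (fun s => Real.log ‖g s‖) ((g' / g t).re) t := by
  have hn : ‖g t‖ ≠ 0 := norm_ne_zero_iff.mpr h0
  have h1 := hg.norm_sq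
  have h2 : HasDerivAt (fun s => Real.log (‖g s‖ ^ 2)) (2 * inner ℝ (g t) g' / ‖g t‖ ^ 2) t :=
    h1.log (pow_ne_zero 2 hn)
  have h3 : HasDerivAt (fun s => (1 / 2 : ℝ) * Real.log (‖g s‖ ^ 2))
      ((1 / 2 : ℝ) * (2 * inner ℝ (g t) g' / ‖g t‖ ^ 2)) t := h2.const_mul _
  have h4 : (fun s => (1 / 2 : ℝ) * Real.log (‖g s‖ ^ 2)) = fun s => Real.log ‖g s‖ := by
    ext s
    rw [Real.log_pow]
    push_cast
    ring
  rw [h4] at h3
  convert h3 using 1
  have hns : (normSq (g t)) ≠ 0 := by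
    rw [Complex.normSq_eq_norm_sq]; exact pow_ne_zero 2 hn
  rw [Complex.div_re, Complex.inner, ← Complex.normSq_eq_norm_sq]
  simp only [mul_re, conj_re, conj_im]
  field_simp
  ring

/-- **Koebe distortion**, lower and upper bounds on the derivative. -/
theorem koebe_distortion {f : ℂ → ℂ} (hf : DifferentiableOn ℂ f (ball 0 1))
    (hinj : InjOn f (ball 0 1)) {z : ℂ} (hz : ‖z‖ < 1) :
    ‖deriv f 0‖ * ((1 - ‖z‖) / (1 + ‖z‖) ^ 3) ≤ ‖deriv f z‖ ∧
      ‖deriv f z‖ ≤ ‖deriv f 0‖ * ((1 + ‖z‖) / (1 - ‖z‖) ^ 3) := by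
  by_cases hz0 : z = 0
  · subst hz0
    simp
  have hr0 : 0 < ‖z‖ := norm_pos_iff.mpr hz0
  set r := ‖z‖ with hr
  have hrC : (r : ℂ) ≠ 0 := by exact_mod_cast hr0.ne'
  obtain ⟨ξ, hξnorm, hzξ⟩ : ∃ ξ : ℂ, ‖ξ‖ = 1 ∧ (r : ℂ) * ξ = z := by
    refine ⟨z / (r : ℂ), ?_, ?_⟩
    · simp only [norm_div, norm_real, Real.norm_eq_abs, abs_of_pos hr0]
      rw [← hr]; exact div_self hr0.ne'
    · field_simp
  have hmem : ∀ t : ℝ, |t| < 1 → (t : ℂ) * ξ ∈ ball (0 : ℂ) 1 := by
    intro t ht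
    simp [hξnorm, ht]
  set g : ℝ → ℂ := fun t => deriv f ((t : ℂ) * ξ) with hg
  have hf' : DifferentiableOn ℂ (deriv f) (ball 0 1) := hf.deriv isOpen_ball
  have hne : ∀ t : ℝ, |t| < 1 → g t ≠ 0 := fun t ht =>
    deriv_ne_zero_of_injOn isOpen_ball hf hinj (hmem t ht)
  have hline : ∀ t : ℝ, HasDerivAt (fun s : ℝ => (s : ℂ) * ξ) ξ t := by
    intro t
    have h0 : HasDerivAt (fun s : ℝ => (s : ℂ)) 1 t := (hasDerivAt_id t).ofReal_comp
    simpa using h0.mul_const ξ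
  have hgd : ∀ t : ℝ, |t| < 1 → HasDerivAt g (deriv (deriv f) ((t : ℂ) * ξ) * ξ) t := by
    intro t ht
    have h1 : HasDerivAt (deriv f) (deriv (deriv f) ((t : ℂ) * ξ)) ((t : ℂ) * ξ) :=
      (hf'.differentiableAt (isOpen_ball.mem_nhds (hmem t ht))).hasDerivAt
    exact h1.comp_of_eq t (hline t) rfl
  set w : ℝ → ℝ := fun t => (deriv (deriv f) ((t : ℂ) * ξ) * ξ / g t).re with hw
  have hud : ∀ t : ℝ, |t| < 1 → HasDerivAt (fun s => Real.log ‖g s‖) (w t) t := fun t ht =>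
    hasDerivAt_log_norm (hgd t ht) (hne t ht)
  -- the pointwise inequality
  have hwbound : ∀ t : ℝ, 0 ≤ t → t < 1 → |(1 - t ^ 2) * w t - 2 * t| ≤ 4 := by
    intro t ht0 ht1
    have htabs : |t| < 1 := by rwa [abs_of_nonneg ht0]
    have hnorm : ‖(t : ℂ) * ξ‖ = t := by simp [hξnorm, abs_of_nonneg ht0]
    have hp := preschwarzian_bound hf hinj (a := (t : ℂ) * ξ) (by rw [hnorm]; exact ht1)
    rw [hnorm] at hp
    set f1 := deriv f ((t : ℂ) * ξ) with hf1
    set f2 := deriv (deriv f) ((t : ℂ) * ξ) with hf2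
    have hf1ne : f1 ≠ 0 := hne t htabs
    have hf1n : 0 < ‖f1‖ := norm_pos_iff.mpr hf1ne
    have hconj : ξ * (starRingEnd ℂ) ξ = 1 := by
      rw [Complex.mul_conj, Complex.normSq_eq_norm_sq, hξnorm]; simp
    -- divide by f1 and multiply by ξ
    have heq : (((1 - t ^ 2) * w t - 2 * t : ℝ) : ℂ)
        = ((((1 - (t : ℂ) ^ 2) * (f2 * ξ / f1) - 2 * t) : ℂ)).re := by
      have : ((1 - (t : ℂ) ^ 2) * (f2 * ξ / f1) - 2 * t)
          = (((1 - t ^ 2 : ℝ) : ℂ) * (f2 * ξ / f1) - ((2 * t : ℝ) : ℂ)) := by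
        push_cast; ring
      rw [this]
      simp only [sub_re, ofReal_re, re_ofReal_mul]
      rfl
    have hre : (1 - t ^ 2) * w t - 2 * t
        = ((1 - (t : ℂ) ^ 2) * (f2 * ξ / f1) - 2 * t).re := by
      exact_mod_cast heq
    rw [hre]
    refine (Complex.abs_re_le_norm _).trans ?_
    have hexpr : ((1 - (t : ℂ) ^ 2) * (f2 * ξ / f1) - 2 * t)
        = ξ * (((1 - (‖(t : ℂ) * ξ‖ : ℂ) ^ 2) * f2 - 2 * (starRingEnd ℂ) ((t : ℂ) * ξ) * f1) / f1) := by
      rw [hnorm, map_mul, conj_ofReal]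
      have e1 : ξ * (((1 - (t : ℂ) ^ 2) * f2 - 2 * ((t : ℂ) * (starRingEnd ℂ) ξ) * f1) / f1)
          = (1 - (t : ℂ) ^ 2) * (f2 * ξ / f1) - 2 * t * (ξ * (starRingEnd ℂ) ξ) * (f1 / f1) := by
        ring
      rw [e1, hconj, div_self hf1ne]
      ring
    rw [hexpr, norm_mul, hξnorm, one_mul, norm_div, hnorm]
    rw [div_le_iff₀ hf1n]
    simpa [hnorm] using hp
  have hw_lower : ∀ t : ℝ, 0 ≤ t → t < 1 → (2 * t - 4) / (1 - t ^ 2) ≤ w t := by
    intro t ht0 ht1
    have h1 := abs_le.mp (hwbound t ht0 ht1)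
    have hpos : 0 < 1 - t ^ 2 := by nlinarith
    rw [div_le_iff₀ hpos]
    linarith [h1.1]
  have hw_upper : ∀ t : ℝ, 0 ≤ t → t < 1 → w t ≤ (2 * t + 4) / (1 - t ^ 2) := by
    intro t ht0 ht1
    have h1 := abs_le.mp (hwbound t ht0 ht1)
    have hpos : 0 < 1 - t ^ 2 := by nlinarith
    rw [le_div_iff₀ hpos]
    linarith [h1.2]
  -- comparison functions
  have hL : ∀ t : ℝ, 0 ≤ t → t < 1 → HasDerivAt (fun s => Real.log (1 - s) - 3 * Real.log (1 + s))
      ((2 * t - 4) / (1 - t ^ 2)) t := by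
    intro t ht0 ht1
    have h1 : HasDerivAt (fun s : ℝ => 1 - s) (-1) t := by
      simpa using (hasDerivAt_id t).const_sub 1
    have h2 : HasDerivAt (fun s : ℝ => 1 + s) 1 t := by
      simpa using (hasDerivAt_id t).const_add 1
    have h3 := h1.log (by linarith : 1 - t ≠ 0)
    have h4 := (h2.log (by linarith : 1 + t ≠ 0)).const_mul 3
    have h5 := h3.fun_sub h4
    have h6 : 1 - t ≠ 0 := by linarith
    have h7 : 1 + t ≠ 0 := by linarith
    have h8 : 1 - t ^ 2 = (1 - t) * (1 + t) := by ring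
    have e : -1 / (1 - t) - 3 * (1 / (1 + t)) = (2 * t - 4) / (1 - t ^ 2) := by
      rw [h8]
      field_simp
      ring
    rw [e] at h5
    exact h5
  have hU : ∀ t : ℝ, 0 ≤ t → t < 1 → HasDerivAt (fun s => Real.log (1 + s) - 3 * Real.log (1 - s))
      ((2 * t + 4) / (1 - t ^ 2)) t := by
    intro t ht0 ht1
    have h1 : HasDerivAt (fun s : ℝ => 1 - s) (-1) t := by
      simpa using (hasDerivAt_id t).const_sub 1
    have h2 : HasDerivAt (fun s : ℝ => 1 + s) 1 t := by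
      simpa using (hasDerivAt_id t).const_add 1
    have h3 := h1.log (by linarith : 1 - t ≠ 0)
    have h4 := (h3.const_mul 3)
    have h5 := (h2.log (by linarith : 1 + t ≠ 0)).fun_sub h4
    have h6 : 1 - t ≠ 0 := by linarith
    have h7 : 1 + t ≠ 0 := by linarith
    have h8 : 1 - t ^ 2 = (1 - t) * (1 + t) := by ring
    have e : 1 / (1 + t) - 3 * (-1 / (1 - t)) = (2 * t + 4) / (1 - t ^ 2) := by
      rw [h8]
      field_simp
      ring
    rw [e] at h5
    exact h5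
  have hr1 : r < 1 := hz
  have hmono1 : MonotoneOn (fun t => Real.log ‖g t‖ - (Real.log (1 - t) - 3 * Real.log (1 + t)))
      (Icc 0 r) := by
    have hder : ∀ t ∈ Icc (0 : ℝ) r, HasDerivAt
        (fun t => Real.log ‖g t‖ - (Real.log (1 - t) - 3 * Real.log (1 + t)))
        (w t - (2 * t - 4) / (1 - t ^ 2)) t := by
      intro t ht
      have ht1 : t < 1 := lt_of_le_of_lt ht.2 hr1
      have htabs : |t| < 1 := by rwa [abs_of_nonneg ht.1]
      exact (hud t htabs).sub (hL t ht.1 ht1)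
    apply monotoneOn_of_deriv_nonneg (convex_Icc 0 r)
    · exact fun t ht => (hder t ht).continuousAt.continuousWithinAt
    · rw [interior_Icc]
      exact fun t ht => (hder t (Ioo_subset_Icc_self ht)).differentiableAt.differentiableWithinAt
    · rw [interior_Icc]
      intro t ht
      rw [(hder t (Ioo_subset_Icc_self ht)).deriv]
      have := hw_lower t ht.1.le (ht.2.trans hr1)
      linarith
  have hmono2 : MonotoneOn (fun t => (Real.log (1 + t) - 3 * Real.log (1 - t)) - Real.log ‖g t‖)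
      (Icc 0 r) := by
    have hder : ∀ t ∈ Icc (0 : ℝ) r, HasDerivAt
        (fun t => (Real.log (1 + t) - 3 * Real.log (1 - t)) - Real.log ‖g t‖)
        ((2 * t + 4) / (1 - t ^ 2) - w t) t := by
      intro t ht
      have ht1 : t < 1 := lt_of_le_of_lt ht.2 hr1
      have htabs : |t| < 1 := by rwa [abs_of_nonneg ht.1]
      exact (hU t ht.1 ht1).sub (hud t htabs)
    apply monotoneOn_of_deriv_nonneg (convex_Icc 0 r)
    · exact fun t ht => (hder t ht).continuousAt.continuousWithinAt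
    · rw [interior_Icc]
      exact fun t ht => (hder t (Ioo_subset_Icc_self ht)).differentiableAt.differentiableWithinAt
    · rw [interior_Icc]
      intro t ht
      rw [(hder t (Ioo_subset_Icc_self ht)).deriv]
      have := hw_upper t ht.1.le (ht.2.trans hr1)
      linarith
  have h0r : (0 : ℝ) ∈ Icc 0 r := ⟨le_refl _, hr0.le⟩
  have hrr : r ∈ Icc 0 r := ⟨hr0.le, le_refl _⟩
  have h1 := hmono1 h0r hrr hr0.le
  have h2 := hmono2 h0r hrr hr0.le
  simp only [sub_zero, add_zero, Real.log_one, mul_zero, sub_self] at h1 h2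
  have hg0 : g 0 = deriv f 0 := by simp [hg]
  have hgr : g r = deriv f z := by simp [hg, hzξ]
  rw [hg0, hgr] at h1 h2
  have hd0 : 0 < ‖deriv f 0‖ :=
    norm_pos_iff.mpr (deriv_ne_zero_of_injOn isOpen_ball hf hinj (mem_ball_self one_pos))
  have hdz : 0 < ‖deriv f z‖ :=
    norm_pos_iff.mpr (deriv_ne_zero_of_injOn isOpen_ball hf hinj (by simpa using hz))
  have h1r : 0 < 1 - r := by linarith
  have h1r' : 0 < 1 + r := by linarith
  constructor
  · -- lower bound
    have hlog : Real.log (‖deriv f 0‖ * ((1 - r) / (1 + r) ^ 3)) ≤ Real.log ‖deriv f z‖ := by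
      rw [Real.log_mul hd0.ne' (by positivity), Real.log_div h1r.ne' (by positivity),
        Real.log_pow]
      push_cast
      linarith
    exact (Real.log_le_log_iff (by positivity) hdz).mp hlog
  · have hlog : Real.log ‖deriv f z‖ ≤ Real.log (‖deriv f 0‖ * ((1 + r) / (1 - r) ^ 3)) := by
      rw [Real.log_mul hd0.ne' (by positivity), Real.log_div h1r'.ne' (by positivity),
        Real.log_pow]
      push_cast
      linarith
    exact (Real.log_le_log_iff hdz (by positivity)).mp hlog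

end Vale.Agent.Lib.P142
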