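import Vale.Agent.Lib.P142.Distortion

open Complex Metric Set Filter Topology MeasureTheory

namespace Vale.Agent.Lib.P142

/-- The unit circle as a measurable space. -/
abbrev T := Metric.sphere (0 : ℂ) 1

/-- The logarithmic kernel. -/
noncomputable def ell (z : ℂ) (θ : T) : ℝ := -Real.log ‖1 - (starRingEnd ℂ) (θ : ℂ) * z‖

lemma norm_theta (θ : T) : ‖(θ : ℂ)‖ = 1 := by
  simp

lemma norm_conj_theta_mul (θ : T) (z : ℂ) : ‖(starRingEnd ℂ) (θ : ℂ) * z‖ = ‖z‖ := by
  rw [norm_mul, RCLike.norm_conj, norm_theta, one_mul]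

lemma kernel_lower (θ : T) (z : ℂ) : 1 - ‖z‖ ≤ ‖1 - (starRingEnd ℂ) (θ : ℂ) * z‖ := by
  have h := norm_sub_norm_le (1 : ℂ) ((starRingEnd ℂ) (θ : ℂ) * z)
  rw [norm_one, norm_conj_theta_mul] at h
  exact h

lemma kernel_upper (θ : T) {z : ℂ} (hz : ‖z‖ < 1) : ‖1 - (starRingEnd ℂ) (θ : ℂ) * z‖ ≤ 2 := by
  have h := norm_sub_le (1 : ℂ) ((starRingEnd ℂ) (θ : ℂ) * z)
  rw [norm_one, norm_conj_theta_mul] at h
  linarith

lemma kernel_pos (θ : T) {z : ℂ} (hz : ‖z‖ < 1) : 0 < ‖1 - (starRingEnd ℂ) (θ : ℂ) * z‖ := by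
  have := kernel_lower θ z
  linarith

lemma kernel_slit (θ : T) {z : ℂ} (hz : ‖z‖ < 1) : 1 - (starRingEnd ℂ) (θ : ℂ) * z ∈ slitPlane := by
  left
  have h1 : ‖(starRingEnd ℂ) (θ : ℂ) * z‖ < 1 := by rwa [norm_conj_theta_mul]
  have h2 := Complex.abs_re_le_norm ((starRingEnd ℂ) (θ : ℂ) * z)
  have h3 := abs_le.mp (h2.trans h1.le)
  have h4 : ((starRingEnd ℂ) (θ : ℂ) * z).re < 1 := by
    have := (Complex.re_le_norm ((starRingEnd ℂ) (θ : ℂ) * z))
    linarith
  simp only [sub_re, one_re]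
  linarith

lemma ell_lower (θ : T) {z : ℂ} (hz : ‖z‖ < 1) : -Real.log 2 ≤ ell z θ := by
  have h := Real.log_le_log (kernel_pos θ hz) (kernel_upper θ hz)
  simp only [ell]
  linarith

lemma ell_upper (θ : T) {z : ℂ} (hz : ‖z‖ < 1) : ell z θ ≤ Real.log (1 / (1 - ‖z‖)) := by
  have h := Real.log_le_log (by linarith : 0 < 1 - ‖z‖) (kernel_lower θ z)
  simp only [ell]
  rw [one_div, Real.log_inv]
  linarith

lemma continuous_kernel (z : ℂ) :
    Continuous (fun θ : T => (1 - (starRingEnd ℂ) (θ : ℂ) * z)) := by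
  fun_prop

lemma continuous_ell {z : ℂ} (hz : ‖z‖ < 1) : Continuous (ell z) := by
  apply Continuous.neg
  apply Continuous.log (continuous_kernel z).norm
  intro θ
  exact (kernel_pos θ hz).ne'

lemma bounded_ell {z : ℂ} (hz : ‖z‖ < 1) : ∃ C, ∀ θ : T, |ell z θ| ≤ C := by
  refine ⟨max (Real.log 2) (Real.log (1 / (1 - ‖z‖))), fun θ => ?_⟩
  rw [abs_le]
  constructor
  · have := ell_lower θ hz
    have h2 := le_max_left (Real.log 2) (Real.log (1 / (1 - ‖z‖)))
    linarith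
  · exact (ell_upper θ hz).trans (le_max_right _ _)

lemma integrable_ell {z : ℂ} (hz : ‖z‖ < 1) (A : Measure T) [IsFiniteMeasure A] :
    Integrable (ell z) A := by
  obtain ⟨C, hC⟩ := bounded_ell hz
  exact Integrable.of_bound (continuous_ell hz).aestronglyMeasurable C
    (Eventually.of_forall fun θ => by simpa using hC θ)

/-- Far from the boundary direction the kernel is bounded below. -/
lemma kernel_far (θ ξ : T) {ρ : ℝ} (hρ0 : 0 ≤ ρ) (hρ1 : ρ ≤ 1) :
    ‖(θ : ℂ) - ξ‖ / 2 ≤ ‖1 - (starRingEnd ℂ) (θ : ℂ) * ((ρ : ℂ) * ξ)‖ := by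
  set w : ℂ := (starRingEnd ℂ) (θ : ℂ) * ξ with hw
  have hwnorm : ‖w‖ = 1 := by
    rw [hw, norm_mul, RCLike.norm_conj, norm_theta, norm_theta, one_mul]
  have e : (starRingEnd ℂ) (θ : ℂ) * ((ρ : ℂ) * ξ) = (ρ : ℂ) * w := by
    rw [hw]; ring
  rw [e]
  have hθθ : (starRingEnd ℂ) (θ : ℂ) * (θ : ℂ) = 1 := by
    rw [mul_comm, Complex.mul_conj, Complex.normSq_eq_norm_sq, norm_theta]; simp
  have h1 : ‖(θ : ℂ) - ξ‖ = ‖1 - w‖ := by
    have : (1 : ℂ) - w = (starRingEnd ℂ) (θ : ℂ) * ((θ : ℂ) - ξ) := by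
      rw [hw, mul_sub, hθθ]
    rw [this, norm_mul, RCLike.norm_conj, norm_theta, one_mul]
  rw [h1]
  have h2 : ‖1 - w‖ ≤ ‖1 - (ρ : ℂ) * w‖ + ‖(ρ : ℂ) * w - w‖ := by
    have := norm_add_le (1 - (ρ : ℂ) * w) ((ρ : ℂ) * w - w)
    have e2 : 1 - (ρ : ℂ) * w + ((ρ : ℂ) * w - w) = 1 - w := by ring
    rwa [e2] at this
  have h3 : ‖(ρ : ℂ) * w - w‖ = 1 - ρ := by
    have : (ρ : ℂ) * w - w = ((ρ - 1 : ℝ) : ℂ) * w := by push_cast; ring
    rw [this, norm_mul, hwnorm, mul_one, norm_real, Real.norm_eq_abs, abs_of_nonpos (by linarith)]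
    ring
  have h4 : 1 - ρ ≤ ‖1 - (ρ : ℂ) * w‖ := by
    have := norm_sub_norm_le (1 : ℂ) ((ρ : ℂ) * w)
    rw [norm_one, norm_mul, hwnorm, mul_one, norm_real, Real.norm_eq_abs, abs_of_nonneg hρ0] at this
    exact this
  linarith

/-- Tangent-line form of Jensen's inequality for a measure of mass at most `a`. -/
lemma exp_integral_le {X : Type*} [MeasurableSpace X] (ρ : Measure X) [IsFiniteMeasure ρ]
    {g : X → ℝ} (hg : Integrable g ρ)
    {a : ℝ} (ha : 0 < a) (hM : ρ.real univ ≤ a)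
    (hexpa : Integrable (fun x => Real.exp (a * g x)) ρ) :
    Real.exp (∫ x, g x ∂ρ) ≤ 1 + (1 / a) * ∫ x, Real.exp (a * g x) ∂ρ := by
  set J := ∫ x, g x ∂ρ with hJ
  set M := ρ.real univ with hMdef
  have hpt : ∀ x, Real.exp J * (1 + a * g x - J) ≤ Real.exp (a * g x) := by
    intro x
    have h1 := Real.add_one_le_exp (a * g x - J)
    have h2 : Real.exp (a * g x) = Real.exp J * Real.exp (a * g x - J) := by
      rw [← Real.exp_add]; congr 1; ring
    rw [h2]
    apply mul_le_mul_of_nonneg_left _ (Real.exp_pos J).le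
    linarith
  have hi : Integrable (fun x => (1 : ℝ) + a * g x) ρ := (integrable_const (1 : ℝ)).add (hg.const_mul a)
  have hint : Integrable (fun x => Real.exp J * (1 + a * g x - J)) ρ :=
    (hi.sub (integrable_const J)).const_mul _
  have hI := integral_mono hint hexpa hpt
  have hval : ∫ x, Real.exp J * (1 + a * g x - J) ∂ρ = Real.exp J * (M + a * J - M * J) := by
    rw [integral_const_mul]
    congr 1
    rw [integral_sub hi (integrable_const J),
      integral_add (integrable_const (1 : ℝ)) (hg.const_mul a), integral_const_mul, integral_const,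
      integral_const]
    simp only [smul_eq_mul, mul_one, Measure.real, hMdef, ← hJ]
  rw [hval] at hI
  have h1 : Real.exp J * (1 - J) ≤ 1 := by
    have h2 := Real.add_one_le_exp (-J)
    have h3 : Real.exp J * Real.exp (-J) = 1 := by
      rw [← Real.exp_add]; simp
    calc Real.exp J * (1 - J) ≤ Real.exp J * Real.exp (-J) :=
          mul_le_mul_of_nonneg_left (by linarith) (Real.exp_pos J).le
      _ = 1 := h3
  have h4 : (a - M) * (Real.exp J * (1 - J)) ≤ (a - M) * 1 :=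
    mul_le_mul_of_nonneg_left h1 (by linarith)
  have h5 : a * Real.exp J ≤ (∫ x, Real.exp (a * g x) ∂ρ) + (a - M) := by
    nlinarith
  have hM0 : 0 ≤ M := measureReal_nonneg
  have h6 : Real.exp J ≤ (1 / a) * ((∫ x, Real.exp (a * g x) ∂ρ) + (a - M)) := by
    rw [one_div, ← div_eq_inv_mul, le_div_iff₀ ha]
    linarith
  have h7 : (1 / a) * (a - M) ≤ 1 := by
    rw [one_div, ← div_eq_inv_mul, div_le_one ha]
    linarith
  calc Real.exp J ≤ (1 / a) * ((∫ x, Real.exp (a * g x) ∂ρ) + (a - M)) := h6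
    _ = (1 / a) * (∫ x, Real.exp (a * g x) ∂ρ) + (1 / a) * (a - M) := by ring
    _ ≤ 1 + (1 / a) * ∫ x, Real.exp (a * g x) ∂ρ := by linarith

/-- Local mass bound: if all atoms are at most `m` and `m < a` there is a uniform scale at which
every ball carries mass at most `a`. -/
lemma local_mass (A : Measure T) [IsFiniteMeasure A] {a : ENNReal}
    (hatom : ∀ θ : T, A {θ} < a) : ∃ δ > 0, ∀ ξ : T, A (ball ξ δ) ≤ a := by
  have hloc : ∀ ξ : T, ∃ r > 0, A (ball ξ r) < a := by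
    intro ξ
    have hanti : Antitone fun n : ℕ => closedBall ξ ((1 : ℝ) / (n + 1)) := by
      intro m n hmn
      apply closedBall_subset_closedBall
      apply one_div_le_one_div_of_le (by positivity)
      have : (m : ℝ) ≤ n := by exact_mod_cast hmn
      linarith
    have hinter : (⋂ n : ℕ, closedBall ξ ((1 : ℝ) / (n + 1))) = {ξ} := by
      ext x
      simp only [mem_iInter, mem_closedBall, mem_singleton_iff]
      constructor
      · intro h
        have h0 : dist x ξ ≤ 0 := by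
          exact ge_of_tendsto' tendsto_one_div_add_atTop_nhds_zero_nat h
        exact dist_le_zero.mp h0
      · rintro rfl n
        simp only [dist_self]
        positivity
    have ht := tendsto_measure_iInter_atTop (μ := A)
      (s := fun n : ℕ => closedBall ξ ((1 : ℝ) / (n + 1)))
      (fun n => (isClosed_closedBall).nullMeasurableSet) hanti ⟨0, measure_ne_top _ _⟩
    rw [hinter] at ht
    have hev := ht.eventually (gt_mem_nhds (hatom ξ))
    obtain ⟨n, hn⟩ := hev.exists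
    refine ⟨(1 : ℝ) / (n + 1), by positivity, lt_of_le_of_lt (measure_mono ball_subset_closedBall) hn⟩
  choose r hr0 hr using hloc
  obtain ⟨δ, hδ, hcov⟩ := lebesgue_number_lemma_of_metric (s := (univ : Set T))
    (c := fun ξ : T => ball ξ (r ξ)) isCompact_univ (fun ξ => isOpen_ball)
    (by
      intro x _
      exact mem_iUnion.mpr ⟨x, mem_ball_self (hr0 x)⟩)
  refine ⟨δ, hδ, fun ξ => ?_⟩
  obtain ⟨i, hi⟩ := hcov ξ (mem_univ _)
  exact (measure_mono hi).trans (hr i).le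

/-- Main pointwise estimate for the exponential of the log potential. -/
theorem pointwise_bound (A B : Measure T) [IsFiniteMeasure A] [IsFiniteMeasure B]
    {a s : ℝ} (ha : 0 < a) (hs : 0 < s)
    (hatom : ∀ θ : T, A {θ} < ENNReal.ofReal a) :
    ∃ K : ℝ, 0 < K ∧ ∀ z : ℂ, ‖z‖ < 1 →
      Real.exp (s * (∫ θ, ell z θ ∂A - ∫ θ, ell z θ ∂B)) ≤
        K * (1 + (1 / a) * ∫ θ, ‖1 - (starRingEnd ℂ) (θ : ℂ) * z‖ ^ (-(a * s)) ∂A) := by
  obtain ⟨δ, hδ, hmass⟩ := local_mass A hatom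
  set E : ℝ := max (Real.log (2 / δ)) 0 with hE
  have hE0 : 0 ≤ E := le_max_right _ _
  set K : ℝ := Real.exp (s * (E * A.real univ + Real.log 2 * B.real univ)) with hK
  refine ⟨K, Real.exp_pos _, ?_⟩
  intro z hz
  -- choose direction
  obtain ⟨ρ, ξ, hρ0, hρ1, hξ⟩ : ∃ (ρ : ℝ) (ξ : T), 0 ≤ ρ ∧ ρ < 1 ∧ z = (ρ : ℂ) * (ξ : ℂ) := by
    by_cases hz0 : z = 0
    · refine ⟨0, ⟨1, by simp⟩, le_refl _, one_pos, by simp [hz0]⟩
    · have hn : (‖z‖ : ℂ) ≠ 0 := by
        exact_mod_cast norm_ne_zero_iff.mpr hz0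
      refine ⟨‖z‖, ⟨z / (‖z‖ : ℂ), by simp [hz0]⟩, norm_nonneg _, hz, ?_⟩
      simp only
      field_simp
  set S : Set T := ball ξ δ with hS
  have hSm : MeasurableSet S := measurableSet_ball
  have hint := integrable_ell hz A
  have hintB := integrable_ell hz B
  -- far part
  have hfar : ∫ θ in Sᶜ, ell z θ ∂A ≤ E * A.real univ := by
    have hbd : ∀ θ ∈ Sᶜ, ell z θ ≤ E := by
      intro θ hθ
      have h1 : δ ≤ dist θ ξ := by simpa [hS] using hθ
      have h2 : dist θ ξ = ‖(θ : ℂ) - ξ‖ := by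
        rw [Subtype.dist_eq, dist_eq_norm]
      have h3 := kernel_far θ ξ hρ0 hρ1.le
      rw [← hξ, ← h2] at h3
      have h4 : δ / 2 ≤ ‖1 - (starRingEnd ℂ) (θ : ℂ) * z‖ := by linarith
      have h5 := Real.log_le_log (by positivity) h4
      have h6 : Real.log (δ / 2) = - Real.log (2 / δ) := by
        rw [← Real.log_inv, inv_div]
      simp only [ell]
      have h7 := le_max_left (Real.log (2 / δ)) 0
      linarith
    calc ∫ θ in Sᶜ, ell z θ ∂A ≤ ∫ θ in Sᶜ, E ∂A := by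
          apply setIntegral_mono_on hint.integrableOn (integrable_const _).integrableOn
            hSm.compl hbd
      _ = (A.restrict Sᶜ).real univ * E := by
          rw [integral_const, smul_eq_mul]
      _ ≤ A.real univ * E := by
          apply mul_le_mul_of_nonneg_right _ hE0
          simp only [Measure.real, Measure.restrict_apply_univ]
          exact ENNReal.toReal_mono (measure_ne_top _ _) (measure_mono (subset_univ _))
      _ = E * A.real univ := by ring
  have hBbd : -(Real.log 2 * B.real univ) ≤ ∫ θ, ell z θ ∂B := by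
    have h1 : ∫ θ, (-Real.log 2) ∂B ≤ ∫ θ, ell z θ ∂B :=
      integral_mono (integrable_const _) hintB (fun θ => ell_lower θ hz)
    rw [integral_const, smul_eq_mul] at h1
    linarith
  -- near part
  set p : ℝ := a * s with hp
  have hkpos : ∀ θ : T, 0 < ‖1 - (starRingEnd ℂ) (θ : ℂ) * z‖ := fun θ => kernel_pos θ hz
  have hexpeq : ∀ θ : T, Real.exp (a * (s * ell z θ)) = ‖1 - (starRingEnd ℂ) (θ : ℂ) * z‖ ^ (-p) := by
    intro θ
    rw [Real.rpow_def_of_pos (hkpos θ), ell]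
    congr 1
    simp only [hp]
    ring
  have hcontk : Continuous (fun θ : T => ‖1 - (starRingEnd ℂ) (θ : ℂ) * z‖ ^ (-p)) := by
    apply Continuous.rpow_const (continuous_kernel z).norm
    intro θ
    left
    exact (hkpos θ).ne'
  obtain ⟨Cp, hCp⟩ : ∃ C, ∀ θ : T, ‖‖1 - (starRingEnd ℂ) (θ : ℂ) * z‖ ^ (-p)‖ ≤ C := by
    obtain ⟨C, hC⟩ := (isCompact_univ (X := T)).exists_bound_of_continuousOn hcontk.continuousOn
    exact ⟨C, fun θ => hC θ (mem_univ _)⟩
  have hintk : ∀ (ρ' : Measure T) [IsFiniteMeasure ρ'],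
      Integrable (fun θ : T => ‖1 - (starRingEnd ℂ) (θ : ℂ) * z‖ ^ (-p)) ρ' := by
    intro ρ' _
    exact Integrable.of_bound hcontk.aestronglyMeasurable Cp (Eventually.of_forall hCp)
  have hjensen := exp_integral_le (A.restrict S) (g := fun θ => s * ell z θ)
    (hint.restrict.const_mul s) ha
    (by
      simp only [Measure.real, Measure.restrict_apply_univ]
      apply ENNReal.toReal_le_of_le_ofReal ha.le
      exact hmass ξ)
    (by
      simp_rw [hexpeq]
      exact hintk _)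
  simp_rw [hexpeq] at hjensen
  rw [integral_const_mul] at hjensen
  have hnear : ∫ θ in S, ‖1 - (starRingEnd ℂ) (θ : ℂ) * z‖ ^ (-p) ∂A
      ≤ ∫ θ, ‖1 - (starRingEnd ℂ) (θ : ℂ) * z‖ ^ (-p) ∂A := by
    apply setIntegral_le_integral (hintk A)
    exact Eventually.of_forall fun θ => by positivity
  have hJ : Real.exp (s * ∫ θ in S, ell z θ ∂A) ≤
      1 + (1 / a) * ∫ θ, ‖1 - (starRingEnd ℂ) (θ : ℂ) * z‖ ^ (-p) ∂A := by
    refine hjensen.trans ?_
    have : 0 ≤ 1 / a := by positivity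
    nlinarith
  -- assemble
  have hsplit : ∫ θ, ell z θ ∂A = ∫ θ in S, ell z θ ∂A + ∫ θ in Sᶜ, ell z θ ∂A :=
    (integral_add_compl hSm hint).symm
  have hexponent : s * (∫ θ, ell z θ ∂A - ∫ θ, ell z θ ∂B) ≤
      s * (E * A.real univ + Real.log 2 * B.real univ) + s * ∫ θ in S, ell z θ ∂A := by
    rw [hsplit]
    have : (∫ θ in S, ell z θ ∂A + ∫ θ in Sᶜ, ell z θ ∂A - ∫ θ, ell z θ ∂B) ≤
        (E * A.real univ + Real.log 2 * B.real univ) + ∫ θ in S, ell z θ ∂A := by linarith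
    have h2 := mul_le_mul_of_nonneg_left this hs.le
    linarith
  calc Real.exp (s * (∫ θ, ell z θ ∂A - ∫ θ, ell z θ ∂B))
      ≤ Real.exp (s * (E * A.real univ + Real.log 2 * B.real univ) + s * ∫ θ in S, ell z θ ∂A) :=
        Real.exp_le_exp.mpr hexponent
    _ = K * Real.exp (s * ∫ θ in S, ell z θ ∂A) := by rw [Real.exp_add]
    _ ≤ K * (1 + (1 / a) * ∫ θ, ‖1 - (starRingEnd ℂ) (θ : ℂ) * z‖ ^ (-p) ∂A) :=
        mul_le_mul_of_nonneg_left hJ (Real.exp_pos _).le

end Vale.Agent.Lib.P142
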