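import Vale.Agent.Lib.P142.Area

open Complex Metric Set Filter Topology MeasureTheory

namespace Vale.Agent.Lib.P142

/-- holomorphic square root on the disc -/
lemma exists_sqrt {k : ℂ → ℂ} (hk : DifferentiableOn ℂ k (ball 0 1))
    (hk0 : ∀ z ∈ ball (0 : ℂ) 1, k z ≠ 0) (hk1 : k 0 = 1) :
    ∃ s : ℂ → ℂ, DifferentiableOn ℂ s (ball 0 1) ∧ (∀ z ∈ ball (0 : ℂ) 1, s z ^ 2 = k z) ∧ s 0 = 1
      ∧ (∀ z ∈ ball (0 : ℂ) 1, s z ≠ 0) := by
  have hq : DifferentiableOn ℂ (fun z => deriv k z / k z) (ball 0 1) :=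
    (hk.deriv isOpen_ball).div hk hk0
  obtain ⟨L, hL0, hL⟩ := hq.isExactOn_ball.with_val_at 0 0
  have hLd : DifferentiableOn ℂ L (ball 0 1) := fun z hz =>
    (hL z hz).differentiableAt.differentiableWithinAt
  set m : ℂ → ℂ := fun z => k z * exp (-L z) with hm
  have hmd : ∀ z ∈ ball (0 : ℂ) 1, HasDerivAt m 0 z := by
    intro z hz
    have h1 : HasDerivAt k (deriv k z) z :=
      (hk.differentiableAt (isOpen_ball.mem_nhds hz)).hasDerivAt
    have h2 : HasDerivAt (fun z => exp (-L z)) (exp (-L z) * (-(deriv k z / k z))) z :=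
      (hL z hz).neg.cexp
    have h3 := h1.fun_mul h2
    have hne := hk0 z hz
    have e : k z * (exp (-L z) * (-(deriv k z / k z))) = -(deriv k z * exp (-L z)) := by
      field_simp
    rw [e, add_neg_cancel] at h3
    exact h3
  have hconst : ∀ z ∈ ball (0 : ℂ) 1, m z = m 0 := by
    have hdm : DifferentiableOn ℂ m (ball 0 1) := fun z hz =>
      (hmd z hz).differentiableAt.differentiableWithinAt
    have h0mem : (0 : ℂ) ∈ ball (0 : ℂ) 1 := mem_ball_self one_pos
    intro z hz
    exact isOpen_ball.is_const_of_deriv_eq_zero (convex_ball 0 1).isPreconnected hdm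
      (fun y hy => (hmd y hy).deriv) hz h0mem
  have hm0 : m 0 = 1 := by simp [hm, hL0, hk1]
  have hkexp : ∀ z ∈ ball (0 : ℂ) 1, k z = exp (L z) := by
    intro z hz
    have h1 := hconst z hz
    rw [hm0] at h1
    simp only [hm] at h1
    have h2 : exp (-L z) * exp (L z) = 1 := by
      rw [← Complex.exp_add]; simp
    calc k z = k z * (exp (-L z) * exp (L z)) := by rw [h2, mul_one]
      _ = (k z * exp (-L z)) * exp (L z) := by ring
      _ = exp (L z) := by rw [h1, one_mul]
  refine ⟨fun z => exp (L z / 2), ?_, ?_, ?_, ?_⟩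
  · exact (hLd.div_const 2).cexp
  · intro z hz
    simp only
    rw [← Complex.exp_nat_mul, hkexp z hz]
    congr 1
    push_cast
    ring
  · simp [hL0]
  · intro z _
    exact exp_ne_zero _

/-- **Bieberbach's inequality** for the second coefficient, in terms of the second derivative. -/
theorem bieberbach_normalized {f : ℂ → ℂ} (hf : DifferentiableOn ℂ f (ball 0 1))
    (hinj : InjOn f (ball 0 1)) (hf0 : f 0 = 0) (hf1 : deriv f 0 = 1) :
    ‖deriv (deriv f) 0‖ ≤ 4 := by
  have h0mem : (0 : ℂ) ∈ ball (0 : ℂ) 1 := mem_ball_self one_pos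
  set k : ℂ → ℂ := dslope f 0 with hk
  have hkd : DifferentiableOn ℂ k (ball 0 1) :=
    (differentiableOn_dslope (isOpen_ball.mem_nhds h0mem)).2 hf
  have hfk : ∀ z, f z = z * k z := by
    intro z
    have := sub_smul_dslope f 0 z
    simp only [smul_eq_mul, sub_zero, hf0] at this
    rw [hk, this]
  have hk1 : k 0 = 1 := by
    rw [hk, dslope_same, hf1]
  have hk0 : ∀ z ∈ ball (0 : ℂ) 1, k z ≠ 0 := by
    intro z hz h0
    by_cases hz0 : z = 0
    · rw [hz0, hk1] at h0; exact one_ne_zero h0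
    · apply hz0
      apply hinj hz h0mem
      rw [hfk z, h0, mul_zero, hf0]
  obtain ⟨s, hsd, hsq, hs1, hsne⟩ := exists_sqrt hkd hk0 hk1
  have hsq_mem : ∀ z ∈ ball (0 : ℂ) 1, z ^ 2 ∈ ball (0 : ℂ) 1 := by
    intro z hz
    simp only [mem_ball, dist_zero_right, norm_pow] at hz ⊢
    nlinarith [norm_nonneg z]
  -- the odd square-root transform
  set h : ℂ → ℂ := fun z => z * s (z ^ 2) with hh
  have hhd : DifferentiableOn ℂ h (ball 0 1) := by
    apply differentiable_id.differentiableOn.mul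
    exact hsd.comp (differentiable_id.pow 2).differentiableOn hsq_mem
  have hh_sq : ∀ z ∈ ball (0 : ℂ) 1, h z ^ 2 = f (z ^ 2) := by
    intro z hz
    simp only [hh, mul_pow]
    rw [hsq _ (hsq_mem z hz), hfk]
  have hinjh : InjOn h (ball 0 1) := by
    intro a ha b hb hab
    have h1 : f (a ^ 2) = f (b ^ 2) := by
      rw [← hh_sq a ha, ← hh_sq b hb]
      show h a ^ 2 = h b ^ 2
      rw [hab]
    have h2 : a ^ 2 = b ^ 2 := hinj (hsq_mem a ha) (hsq_mem b hb) h1
    rcases sq_eq_sq_iff_eq_or_eq_neg.mp h2 with h3 | h3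
    · exact h3
    · -- a = -b
      have h4 : h a = - h b := by
        simp only [hh]
        rw [h3]
        simp
      rw [hab] at h4
      have h5 : h b = 0 := by
        have h6 : (2 : ℂ) * h b = 0 := by linear_combination h4
        simpa using h6
      simp only [hh, mul_eq_zero] at h5
      rcases h5 with h5 | h5
      · rw [h3, h5]; simp
      · exact absurd h5 (hsne _ (hsq_mem b hb))
  have hh0 : h 0 = 0 := by simp [hh]
  -- the function G
  set t : ℂ → ℂ := fun z => (s z)⁻¹ with ht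
  have htd : DifferentiableOn ℂ t (ball 0 1) := hsd.inv hsne
  set Q : ℂ → ℂ := dslope t 0 with hQ
  have hQd : DifferentiableOn ℂ Q (ball 0 1) :=
    (differentiableOn_dslope (isOpen_ball.mem_nhds h0mem)).2 htd
  have htQ : ∀ z, t z = 1 + z * Q z := by
    intro z
    have := sub_smul_dslope t 0 z
    simp only [smul_eq_mul, sub_zero] at this
    have ht0 : t 0 = 1 := by simp [ht, hs1]
    rw [hQ, this, ht0]; ring
  set G : ℂ → ℂ := fun u => u * Q (u ^ 2) with hG
  have hGd : DifferentiableOn ℂ G (ball 0 1) := by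
    apply differentiable_id.differentiableOn.mul
    exact hQd.comp (differentiable_id.pow 2).differentiableOn hsq_mem
  have hrel : ∀ v ∈ ball (0 : ℂ) 1, v ≠ 0 → (h v)⁻¹ = v⁻¹ + G v := by
    intro v hv hv0
    have h1 : (s (v ^ 2))⁻¹ = 1 + v ^ 2 * Q (v ^ 2) := htQ (v ^ 2)
    simp only [hh, hG, mul_inv, h1]
    field_simp
  have hbound := area_coeff_bound hhd hinjh hh0 hGd hrel
  -- compute deriv G 0 = Q 0
  have hQ0 : DifferentiableAt ℂ Q 0 := hQd.differentiableAt (isOpen_ball.mem_nhds h0mem)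
  have hderivG : deriv G 0 = Q 0 := by
    have h1 : HasDerivAt (fun u : ℂ => u ^ 2) 0 0 := by
      simpa using hasDerivAt_pow 2 (0 : ℂ)
    have h2 : HasDerivAt (fun u : ℂ => Q (u ^ 2)) (deriv Q 0 * 0) 0 := by
      have h3 : HasDerivAt Q (deriv Q 0) ((0 : ℂ) ^ 2) := by
        simpa using hQ0.hasDerivAt
      exact h3.comp (0 : ℂ) h1
    have h4 : HasDerivAt G (1 * Q ((0 : ℂ) ^ 2) + 0 * (deriv Q 0 * 0)) 0 :=
      (hasDerivAt_id (0 : ℂ)).fun_mul h2
    rw [h4.deriv]
    simp
  -- Q 0 = t'(0)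
  have hQt : Q 0 = deriv t 0 := by rw [hQ, dslope_same]
  have hs0d : DifferentiableAt ℂ s 0 := hsd.differentiableAt (isOpen_ball.mem_nhds h0mem)
  have htderiv : deriv t 0 = - deriv s 0 := by
    have h1 : HasDerivAt t (- deriv s 0 / (s 0) ^ 2) 0 :=
      hs0d.hasDerivAt.inv (hsne 0 h0mem)
    rw [h1.deriv, hs1]
    simp
  -- k'(0) = 2 s'(0)
  have hkderiv : deriv k 0 = 2 * deriv s 0 := by
    have h1 : HasDerivAt (fun z => s z ^ 2) (2 * s 0 * deriv s 0) 0 := by
      simpa using hs0d.hasDerivAt.fun_pow 2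
    have h2 : (fun z => s z ^ 2) =ᶠ[𝓝 0] k := by
      filter_upwards [isOpen_ball.mem_nhds h0mem] with z hz using hsq z hz
    have h3 := h1.congr_of_eventuallyEq h2.symm
    rw [h3.deriv, hs1]; ring
  -- f''(0) = 2 k'(0)
  have hfderiv2 : deriv (deriv f) 0 = 2 * deriv k 0 := by
    have hk0d : DifferentiableAt ℂ k 0 := hkd.differentiableAt (isOpen_ball.mem_nhds h0mem)
    have hdk : DifferentiableOn ℂ (deriv k) (ball 0 1) := hkd.deriv isOpen_ball
    have hdk0 : DifferentiableAt ℂ (deriv k) 0 := hdk.differentiableAt (isOpen_ball.mem_nhds h0mem)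
    have h1 : ∀ z ∈ ball (0 : ℂ) 1, deriv f z = k z + z * deriv k z := by
      intro z hz
      have hkz : DifferentiableAt ℂ k z := hkd.differentiableAt (isOpen_ball.mem_nhds hz)
      have h2 : f = fun z => z * k z := funext hfk
      rw [h2]
      have h3 := (hasDerivAt_id z).fun_mul hkz.hasDerivAt
      simpa using h3.deriv
    have h2 : deriv f =ᶠ[𝓝 0] fun z => k z + z * deriv k z := by
      filter_upwards [isOpen_ball.mem_nhds h0mem] with z hz using h1 z hz
    rw [h2.deriv_eq]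
    have h3 : HasDerivAt (fun z => k z + z * deriv k z)
        (deriv k 0 + (1 * deriv k 0 + 0 * deriv (deriv k) 0)) 0 :=
      hk0d.hasDerivAt.add ((hasDerivAt_id (0 : ℂ)).fun_mul hdk0.hasDerivAt)
    rw [h3.deriv]
    ring
  rw [hderivG, hQt, htderiv, norm_neg] at hbound
  rw [hfderiv2, hkderiv]
  simp only [norm_mul, Complex.norm_ofNat]
  linarith

end Vale.Agent.Lib.P142
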