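import Vale.Agent.Lib.P142.Atoms

open Complex Metric Set Filter Topology MeasureTheory

namespace Vale.Agent.Lib.P142

section Main

variable {f : ℂ → ℂ} {μ ν : Measure T} [IsFiniteMeasure μ] [IsFiniteMeasure ν] {c : ℂ}

/-- Continuity of the complex logarithmic kernel. -/
lemma continuous_clog_kernel {z : ℂ} (hz : ‖z‖ < 1) :
    Continuous (fun θ : T => Complex.log (1 - (starRingEnd ℂ) (θ : ℂ) * z)) := by
  apply Continuous.clog (continuous_kernel z)
  intro θ
  exact kernel_slit θ hz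

lemma integrable_clog_kernel {z : ℂ} (hz : ‖z‖ < 1) (X : Measure T) [IsFiniteMeasure X] :
    Integrable (fun θ : T => Complex.log (1 - (starRingEnd ℂ) (θ : ℂ) * z)) X := by
  have hg := continuous_clog_kernel hz
  obtain ⟨C, hC⟩ := (isCompact_univ (X := T)).exists_bound_of_continuousOn hg.continuousOn
  exact Integrable.of_bound hg.aestronglyMeasurable C
    (Eventually.of_forall fun θ => hC θ (mem_univ _))

lemma re_integral_clog {z : ℂ} (hz : ‖z‖ < 1) (X : Measure T) [IsFiniteMeasure X] :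
    (∫ θ, Complex.log (1 - (starRingEnd ℂ) (θ : ℂ) * z) ∂X).re = - ∫ θ, ell z θ ∂X := by
  have h := Complex.reCLM.integral_comp_comm (integrable_clog_kernel hz X)
  simp only [Complex.reCLM_apply] at h
  rw [← h, ← integral_neg]
  apply integral_congr_ae
  refine Eventually.of_forall fun θ => ?_
  simp only [ell, Complex.log_re, neg_neg]

/-- The log-modulus of the derivative in terms of a mutually singular decomposition. -/
lemma log_norm_deriv {A B : Measure T} [IsFiniteMeasure A] [IsFiniteMeasure B]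
    (hJ : μ + B = ν + A) (hc : c ≠ 0)
    (hrep : ∀ z ∈ ball (0 : ℂ) 1, deriv f z = c * Complex.exp
      ((∫ θ, Complex.log (1 - (starRingEnd ℂ) (θ : ℂ) * z) ∂μ) -
        ∫ θ, Complex.log (1 - (starRingEnd ℂ) (θ : ℂ) * z) ∂ν))
    {z : ℂ} (hz : ‖z‖ < 1) :
    Real.log ‖deriv f z‖ = Real.log ‖c‖ - ∫ θ, ell z θ ∂A + ∫ θ, ell z θ ∂B := by
  have hzmem : z ∈ ball (0 : ℂ) 1 := by simpa using hz
  rw [hrep z hzmem, integral_jordan hJ (continuous_clog_kernel hz), norm_mul, Complex.norm_exp,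
    Real.log_mul (norm_ne_zero_iff.mpr hc) (Real.exp_pos _).ne', Real.log_exp, sub_re,
    re_integral_clog hz, re_integral_clog hz]
  ring

/-- Atom bounds for the Jordan parts. -/
lemma atoms_le {A B : Measure T} [IsFiniteMeasure A] [IsFiniteMeasure B]
    (hf : DifferentiableOn ℂ f (ball 0 1)) (hinj : InjOn f (ball 0 1))
    (hsing : A.MutuallySingular B) (hJ : μ + B = ν + A) (hc : c ≠ 0)
    (hrep : ∀ z ∈ ball (0 : ℂ) 1, deriv f z = c * Complex.exp
      ((∫ θ, Complex.log (1 - (starRingEnd ℂ) (θ : ℂ) * z) ∂μ) -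
        ∫ θ, Complex.log (1 - (starRingEnd ℂ) (θ : ℂ) * z) ∂ν)) (θ₀ : T) :
    A.real {θ₀} ≤ 1 ∧ B.real {θ₀} ≤ 3 := by
  have hd0 : 0 < ‖deriv f 0‖ :=
    norm_pos_iff.mpr (deriv_ne_zero_of_injOn isOpen_ball hf hinj (mem_ball_self one_pos))
  have hcn : 0 < ‖c‖ := norm_pos_iff.mpr hc
  have hbase : ∀ r : ℝ, 0 < r → r < 1 →
      Real.log ‖deriv f 0‖ - Real.log (1 / (1 - r)) - 3 * Real.log 2
        ≤ Real.log ‖deriv f ((r : ℂ) * (θ₀ : ℂ))‖ ∧
      Real.log ‖deriv f ((r : ℂ) * (θ₀ : ℂ))‖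
        ≤ Real.log ‖deriv f 0‖ + Real.log 2 + 3 * Real.log (1 / (1 - r)) := by
    intro r hr0 hr1
    have hz : ‖(r : ℂ) * (θ₀ : ℂ)‖ < 1 := by
      rw [norm_mul_theta r θ₀ hr0.le]; exact hr1
    have hk := koebe_distortion hf hinj hz
    rw [norm_mul_theta r θ₀ hr0.le] at hk
    have hdz : 0 < ‖deriv f ((r : ℂ) * (θ₀ : ℂ))‖ :=
      norm_pos_iff.mpr (deriv_ne_zero_of_injOn isOpen_ball hf hinj (by simpa using hz))
    have h1r : 0 < 1 - r := by linarith
    have h1r' : 0 < 1 + r := by linarith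
    have hlog1r : Real.log (1 + r) ≤ Real.log 2 :=
      Real.log_le_log h1r' (by linarith)
    have hlog1r0 : 0 ≤ Real.log (1 + r) := Real.log_nonneg (by linarith)
    have hL : Real.log (1 / (1 - r)) = - Real.log (1 - r) := by
      rw [one_div, Real.log_inv]
    constructor
    · have h := Real.log_le_log (by positivity) hk.1
      rw [Real.log_mul hd0.ne' (by positivity), Real.log_div h1r.ne' (by positivity),
        Real.log_pow] at h
      push_cast at h
      rw [hL]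
      linarith
    · have h := Real.log_le_log hdz hk.2
      rw [Real.log_mul hd0.ne' (by positivity), Real.log_div h1r'.ne' (by positivity),
        Real.log_pow] at h
      push_cast at h
      rw [hL]
      linarith
  have hA : A.real {θ₀} - B.real {θ₀} ≤ 1 := by
    apply atom_bound A B θ₀ (C := Real.log ‖c‖ - Real.log ‖deriv f 0‖ + 3 * Real.log 2)
    intro r hr0 hr1
    have hz : ‖(r : ℂ) * (θ₀ : ℂ)‖ < 1 := by
      rw [norm_mul_theta r θ₀ hr0.le]; exact hr1
    have hl := log_norm_deriv hJ hc hrep hz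
    have := (hbase r hr0 hr1).1
    linarith
  have hB : B.real {θ₀} - A.real {θ₀} ≤ 3 := by
    apply atom_bound B A θ₀ (C := Real.log ‖deriv f 0‖ + Real.log 2 - Real.log ‖c‖)
    intro r hr0 hr1
    have hz : ‖(r : ℂ) * (θ₀ : ℂ)‖ < 1 := by
      rw [norm_mul_theta r θ₀ hr0.le]; exact hr1
    have hl := log_norm_deriv hJ hc hrep hz
    have := (hbase r hr0 hr1).2
    linarith
  obtain ⟨S, hSm, hAS, hBS⟩ := hsing
  by_cases hθ : θ₀ ∈ S
  · -- A vanishes at θ₀
    have h0 : A.real {θ₀} = 0 := by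
      have : A {θ₀} = 0 := measure_mono_null (singleton_subset_iff.mpr hθ) hAS
      simp [Measure.real, this]
    have hnn : 0 ≤ A.real {θ₀} := measureReal_nonneg
    constructor
    · linarith
    · linarith
  · have h0 : B.real {θ₀} = 0 := by
      have : B {θ₀} = 0 := measure_mono_null (singleton_subset_iff.mpr hθ) hBS
      simp [Measure.real, this]
    constructor
    · linarith
    · linarith

/-- ENNReal form of atom bounds with a strict inequality. -/
lemma atom_lt_ofReal (X : Measure T) [IsFiniteMeasure X] {m a : ℝ} (hma : m < a) (hm : 0 ≤ m)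
    {θ : T} (h : X.real {θ} ≤ m) : X {θ} < ENNReal.ofReal a := by
  have h1 : X {θ} = ENNReal.ofReal (X.real {θ}) := by
    rw [Measure.real, ENNReal.ofReal_toReal (measure_ne_top _ _)]
  rw [h1]
  exact (ENNReal.ofReal_lt_ofReal_iff (by linarith)).mpr (lt_of_le_of_lt h hma)

/-- Finiteness of the area integral from a pointwise exponential potential bound. -/
lemma lintegral_finite_of_potential (X Y : Measure T) [IsFiniteMeasure X] [IsFiniteMeasure Y]
    {a s : ℝ} (ha : 0 < a) (hs : 0 < s) (has : a * s < 2)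
    (hatom : ∀ θ : T, X {θ} < ENNReal.ofReal a) {G : ℂ → ℝ} {K' : ℝ} (hK' : 0 ≤ K')
    (hG : ∀ z : ℂ, ‖z‖ < 1 → G z ≤ K' * Real.exp (s * (∫ θ, ell z θ ∂X - ∫ θ, ell z θ ∂Y))) :
    (∫⁻ z in ball (0 : ℂ) 1, ENNReal.ofReal (G z)) < ⊤ := by
  obtain ⟨K, hK, hbd⟩ := pointwise_bound X Y ha hs hatom
  have hfin := lintegral_bound_ball X ha has
  have hle : ∀ z ∈ ball (0 : ℂ) 1, ENNReal.ofReal (G z) ≤ ENNReal.ofReal (K' * K) *
      ENNReal.ofReal (1 + (1 / a) * ∫ θ, ‖1 - (starRingEnd ℂ) (θ : ℂ) * z‖ ^ (-(a * s)) ∂X) := by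
    intro z hz
    have hz' : ‖z‖ < 1 := by simpa using hz
    rw [← ENNReal.ofReal_mul (by positivity)]
    apply ENNReal.ofReal_le_ofReal
    calc G z ≤ K' * Real.exp (s * (∫ θ, ell z θ ∂X - ∫ θ, ell z θ ∂Y)) := hG z hz'
      _ ≤ K' * (K * (1 + (1 / a) * ∫ θ, ‖1 - (starRingEnd ℂ) (θ : ℂ) * z‖ ^ (-(a * s)) ∂X)) :=
          mul_le_mul_of_nonneg_left (hbd z hz') hK'
      _ = _ := by ring
  calc (∫⁻ z in ball (0 : ℂ) 1, ENNReal.ofReal (G z))
      ≤ ∫⁻ z in ball (0 : ℂ) 1, ENNReal.ofReal (K' * K) *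
        ENNReal.ofReal (1 + (1 / a) * ∫ θ, ‖1 - (starRingEnd ℂ) (θ : ℂ) * z‖ ^ (-(a * s)) ∂X) :=
        setLIntegral_mono' measurableSet_ball hle
    _ ≤ ENNReal.ofReal (K' * K) * ∫⁻ z in ball (0 : ℂ) 1,
        ENNReal.ofReal (1 + (1 / a) * ∫ θ, ‖1 - (starRingEnd ℂ) (θ : ℂ) * z‖ ^ (-(a * s)) ∂X) :=
        (lintegral_const_mul' _ _ ENNReal.ofReal_ne_top).le
    _ < ⊤ := ENNReal.mul_lt_top ENNReal.ofReal_lt_top hfin

/-- Brennan integrability for the bounded boundary rotation class. -/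
theorem brennan_area
    (hf : DifferentiableOn ℂ f (ball 0 1)) (hinj : InjOn f (ball 0 1))
    (hrep : ∀ z ∈ ball (0 : ℂ) 1, deriv f z = c * Complex.exp
      ((∫ θ, Complex.log (1 - (starRingEnd ℂ) (θ : ℂ) * z) ∂μ) -
        ∫ θ, Complex.log (1 - (starRingEnd ℂ) (θ : ℂ) * z) ∂ν))
    {t : ℝ} (ht1 : -2 < t) (ht2 : t < 2 / 3) :
    (∫⁻ z in ball (0 : ℂ) 1, ENNReal.ofReal (‖deriv f z‖ ^ t)) < ⊤ := by
  have h0mem : (0 : ℂ) ∈ ball (0 : ℂ) 1 := mem_ball_self one_pos
  have hderivne : ∀ z ∈ ball (0 : ℂ) 1, deriv f z ≠ 0 := fun z hz =>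
    deriv_ne_zero_of_injOn isOpen_ball hf hinj hz
  have hc : c ≠ 0 := by
    intro h0
    have := hrep 0 h0mem
    rw [h0, zero_mul] at this
    exact hderivne 0 h0mem this
  obtain ⟨A, B, hAfin, hBfin, hsing, hJ⟩ := jordan_decomp μ ν
  have hcn : 0 < ‖c‖ := norm_pos_iff.mpr hc
  have hatoms := atoms_le hf hinj hsing hJ hc hrep
  have hlog : ∀ z : ℂ, ‖z‖ < 1 → ‖deriv f z‖ ^ t =
      ‖c‖ ^ t * Real.exp (t * (- ∫ θ, ell z θ ∂A + ∫ θ, ell z θ ∂B)) := by
    intro z hz
    have hpos : 0 < ‖deriv f z‖ := norm_pos_iff.mpr (hderivne z (by simpa using hz))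
    rw [Real.rpow_def_of_pos hpos, Real.rpow_def_of_pos hcn, log_norm_deriv hJ hc hrep hz,
      ← Real.exp_add]
    congr 1
    ring
  rcases lt_trichotomy t 0 with ht | ht | ht
  · -- negative exponents
    set s : ℝ := -t with hs
    have hs0 : 0 < s := by rw [hs]; linarith
    have hs2 : s < 2 := by rw [hs]; linarith
    set a : ℝ := (1 + 2 / s) / 2 with ha
    have h2s : 1 < 2 / s := by rw [lt_div_iff₀ hs0]; linarith
    have ha1 : 1 < a := by rw [ha]; linarith
    have has : a * s < 2 := by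
      have : a < 2 / s := by rw [ha]; linarith
      rwa [lt_div_iff₀ hs0] at this
    apply lintegral_finite_of_potential A B (by linarith) hs0 has
      (fun θ => atom_lt_ofReal A ha1 zero_le_one (hatoms θ).1) (K' := ‖c‖ ^ t) (by positivity)
    intro z hz
    rw [hlog z hz]
    apply le_of_eq
    congr 2
    rw [hs]
    ring
  · subst ht
    simp only [Real.rpow_zero, ENNReal.ofReal_one, setLIntegral_one]
    exact measure_ball_lt_top
  · set s : ℝ := t with hs
    have hs0 : 0 < s := ht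
    set a : ℝ := (3 + 2 / s) / 2 with ha
    have h2s : 3 < 2 / s := by rw [lt_div_iff₀ hs0]; linarith
    have ha1 : 3 < a := by rw [ha]; linarith
    have has : a * s < 2 := by
      have : a < 2 / s := by rw [ha]; linarith
      rwa [lt_div_iff₀ hs0] at this
    apply lintegral_finite_of_potential B A (by linarith) hs0 has
      (fun θ => atom_lt_ofReal B ha1 (by norm_num) (hatoms θ).2) (K' := ‖c‖ ^ t) (by positivity)
    intro z hz
    rw [hlog z hz]
    apply le_of_eq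
    congr 2
    ring

/-- Poisson integral on a circle. -/
lemma integral_kernel_sq (θ : T) {r : ℝ} (hr0 : 0 < r) (hr1 : r < 1) :
    (∫ φ in (0 : ℝ)..(2 * Real.pi), ‖1 - (starRingEnd ℂ) (θ : ℂ) * circleMap 0 r φ‖ ^ (-(2 : ℝ)))
      = 2 * Real.pi / (1 - r ^ 2) := by
  set κ : ℂ := (starRingEnd ℂ) (θ : ℂ) with hκ
  have hκn : ‖κ‖ = 1 := by simp [hκ]
  set H : ℂ → ℂ := fun u => (1 + κ * u) / (1 - κ * u) with hH
  have hne : ∀ u ∈ ball (0 : ℂ) 1, 1 - κ * u ≠ 0 := by
    intro u hu h0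
    have h1 : κ * u = 1 := by linear_combination -h0
    have h2 : ‖κ * u‖ = 1 := by rw [h1]; simp
    rw [norm_mul, hκn, one_mul] at h2
    have : ‖u‖ < 1 := by simpa using hu
    linarith
  have hHd : DifferentiableOn ℂ H (ball 0 1) := by
    apply DifferentiableOn.div (by fun_prop) (by fun_prop) hne
  have hmean := integral_circle_of_diff hHd hr0 hr1
  have hH0 : H 0 = 1 := by simp [hH]
  rw [hH0, mul_one] at hmean
  have hcont : Continuous (fun φ : ℝ => H (circleMap 0 r φ)) :=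
    continuous_comp_circleMap hHd hr0 hr1
  have hre : (∫ φ in (0 : ℝ)..(2 * Real.pi), (H (circleMap 0 r φ)).re) = 2 * Real.pi := by
    have h1 := congrArg Complex.re hmean
    rw [intervalIntegral.integral_of_le (by positivity)] at h1 ⊢
    have h2 := Complex.reCLM.integral_comp_comm
      (μ := volume.restrict (Ioc 0 (2 * Real.pi))) (φ := fun φ => H (circleMap 0 r φ))
      (hcont.integrableOn_Ioc)
    simp only [Complex.reCLM_apply] at h2
    rw [h2, h1]
    simp
  have hpt : ∀ φ : ℝ, (H (circleMap 0 r φ)).re =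
      (1 - r ^ 2) * ‖1 - κ * circleMap 0 r φ‖ ^ (-(2 : ℝ)) := by
    intro φ
    set w : ℂ := κ * circleMap 0 r φ with hw
    have hwn : ‖w‖ = r := by
      rw [hw, norm_mul, hκn, one_mul]; simp [abs_of_pos hr0]
    have hmem : circleMap 0 r φ ∈ ball (0 : ℂ) 1 := by
      simp [abs_of_pos hr0, hr1]
    have hd : 1 - w ≠ 0 := hne _ hmem
    have hnd : 0 < ‖1 - w‖ := norm_pos_iff.mpr hd
    have hsq : normSq (1 - w) = ‖1 - w‖ ^ 2 := Complex.normSq_eq_norm_sq _
    simp only [hH]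
    rw [← hw, Complex.div_re, hsq]
    rw [Real.rpow_neg hnd.le]
    have hrpow : ‖1 - w‖ ^ (2 : ℝ) = ‖1 - w‖ ^ 2 := by norm_cast
    rw [hrpow]
    have hw2 : w.re ^ 2 + w.im ^ 2 = r ^ 2 := by
      rw [← hwn, ← Complex.normSq_eq_norm_sq, normSq_apply]; ring
    field_simp
    simp only [add_re, one_re, add_im, one_im, sub_re, sub_im]
    nlinarith
  simp_rw [hpt] at hre
  rw [intervalIntegral.integral_const_mul] at hre
  have hpos : 0 < 1 - r ^ 2 := by nlinarith
  rw [eq_div_iff hpos.ne', mul_comm]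
  exact hre

/-- Integral means bound at the exponent `-2`, which gives `β_f(-2) ≤ 1`. -/
theorem brennan_means
    (hf : DifferentiableOn ℂ f (ball 0 1)) (hinj : InjOn f (ball 0 1))
    (hrep : ∀ z ∈ ball (0 : ℂ) 1, deriv f z = c * Complex.exp
      ((∫ θ, Complex.log (1 - (starRingEnd ℂ) (θ : ℂ) * z) ∂μ) -
        ∫ θ, Complex.log (1 - (starRingEnd ℂ) (θ : ℂ) * z) ∂ν))
    {ε : ℝ} (hε : 0 < ε) :
    ∃ C : ℝ, ∀ r : ℝ, 0 < r → r < 1 →
      (1 / (2 * Real.pi)) * ∫ θ in (-Real.pi)..Real.pi, ‖deriv f (r * exp (θ * I))‖ ^ (-(2 : ℝ))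
        ≤ C * (1 - r) ^ (-1 - ε) := by
  have h0mem : (0 : ℂ) ∈ ball (0 : ℂ) 1 := mem_ball_self one_pos
  have hderivne : ∀ z ∈ ball (0 : ℂ) 1, deriv f z ≠ 0 := fun z hz =>
    deriv_ne_zero_of_injOn isOpen_ball hf hinj hz
  have hc : c ≠ 0 := by
    intro h0
    have := hrep 0 h0mem
    rw [h0, zero_mul] at this
    exact hderivne 0 h0mem this
  obtain ⟨A, B, hAfin, hBfin, hsing, hJ⟩ := jordan_decomp μ ν
  have hcn : 0 < ‖c‖ := norm_pos_iff.mpr hc
  have hatoms := atoms_le hf hinj hsing hJ hc hrep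
  set a : ℝ := 1 + ε / 2 with ha
  have ha1 : 1 < a := by rw [ha]; linarith
  have ha0 : 0 < a := by linarith
  have hp : a * 2 = 2 + ε := by rw [ha]; ring
  obtain ⟨K, hK, hbd⟩ := pointwise_bound A B ha0 two_pos
    (fun θ => atom_lt_ofReal A ha1 zero_le_one (hatoms θ).1)
  set C : ℝ := ‖c‖ ^ (-(2 : ℝ)) * K * (1 + (1 / a) * A.real univ) with hC
  refine ⟨C, fun r hr0 hr1 => ?_⟩
  have h1r : 0 < 1 - r := by linarith
  set v : ℝ → ℂ := fun φ => circleMap 0 r φ with hv
  have hvnorm : ∀ φ : ℝ, ‖v φ‖ = r := fun φ => by simp [hv, abs_of_pos hr0]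
  have hvlt : ∀ φ : ℝ, ‖v φ‖ < 1 := fun φ => by rw [hvnorm]; exact hr1
  have hvmem : ∀ φ : ℝ, v φ ∈ ball (0 : ℂ) 1 := fun φ => by simpa using hvlt φ
  have hvcont : Continuous v := continuous_circleMap 0 r
  -- pointwise bound on the circle
  have hkpos : ∀ (θ : T) (φ : ℝ), 1 - r ≤ ‖1 - (starRingEnd ℂ) (θ : ℂ) * v φ‖ := by
    intro θ φ
    have := kernel_lower θ (v φ)
    rwa [hvnorm] at this
  set q : ℝ × T → ℝ := fun x => ‖1 - (starRingEnd ℂ) (x.2 : ℂ) * v x.1‖ ^ (-(2 : ℝ)) with hq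
  have hqcont : Continuous q := by
    apply Continuous.rpow_const
    · fun_prop
    · intro x
      left
      have := hkpos x.2 x.1
      have h2 : 0 < ‖1 - (starRingEnd ℂ) (x.2 : ℂ) * v x.1‖ := by linarith
      exact h2.ne'
  have hqbd : ∀ x, ‖q x‖ ≤ (1 - r) ^ (-(2 : ℝ)) := by
    intro x
    have h2 : 0 < ‖1 - (starRingEnd ℂ) (x.2 : ℂ) * v x.1‖ := by linarith [hkpos x.2 x.1]
    simp only [hq]
    rw [Real.norm_of_nonneg (by positivity)]
    exact Real.rpow_le_rpow_of_nonpos h1r (hkpos x.2 x.1) (by norm_num)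
  have hprod : Integrable (Function.uncurry fun (φ : ℝ) (θ : T) =>
      ‖1 - (starRingEnd ℂ) (θ : ℂ) * v φ‖ ^ (-(2 : ℝ)))
      ((volume.restrict (uIoc 0 (2 * Real.pi))).prod A) := by
    have hfin : IsFiniteMeasure (volume.restrict (uIoc 0 (2 * Real.pi)) : Measure ℝ) :=
      ⟨by simp [uIoc]⟩
    exact Integrable.of_bound hqcont.aestronglyMeasurable _ (Eventually.of_forall hqbd)
  have hswap := intervalIntegral_integral_swap hprod
  have hinner : ∀ θ : T, (∫ φ in (0 : ℝ)..(2 * Real.pi),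
      ‖1 - (starRingEnd ℂ) (θ : ℂ) * v φ‖ ^ (-(2 : ℝ))) = 2 * Real.pi / (1 - r ^ 2) :=
    fun θ => integral_kernel_sq θ hr0 hr1
  simp_rw [hinner] at hswap
  rw [integral_const, smul_eq_mul] at hswap
  set Q : ℝ → ℝ := fun φ => ∫ θ, ‖1 - (starRingEnd ℂ) (θ : ℂ) * v φ‖ ^ (-(2 : ℝ)) ∂A with hQ
  have hQint : IntervalIntegrable Q volume 0 (2 * Real.pi) := by
    rw [intervalIntegrable_iff]
    exact hprod.integral_prod_left
  -- the integrand for f'
  set F : ℝ → ℝ := fun φ => ‖deriv f (v φ)‖ ^ (-(2 : ℝ)) with hF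
  have hFcont : Continuous F := by
    apply Continuous.rpow_const
    · apply Continuous.norm
      have hf' : DifferentiableOn ℂ (deriv f) (ball 0 1) := hf.deriv isOpen_ball
      exact continuous_comp_circleMap hf' hr0 hr1
    · intro φ
      left
      exact norm_ne_zero_iff.mpr (hderivne _ (hvmem φ))
  have hFbd : ∀ φ : ℝ, F φ ≤ ‖c‖ ^ (-(2 : ℝ)) * K *
      (1 + (1 / a) * ((1 - r) ^ (-ε) * Q φ)) := by
    intro φ
    have hz := hvlt φ
    have hpos : 0 < ‖deriv f (v φ)‖ := norm_pos_iff.mpr (hderivne _ (hvmem φ))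
    have hl := log_norm_deriv hJ hc hrep hz
    have e1 : F φ = ‖c‖ ^ (-(2 : ℝ)) *
        Real.exp (2 * (∫ θ, ell (v φ) θ ∂A - ∫ θ, ell (v φ) θ ∂B)) := by
      simp only [hF]
      rw [Real.rpow_def_of_pos hpos, Real.rpow_def_of_pos hcn, hl, ← Real.exp_add]
      congr 1
      ring
    rw [e1, mul_assoc]
    apply mul_le_mul_of_nonneg_left _ (by positivity)
    refine (hbd _ hz).trans ?_
    apply mul_le_mul_of_nonneg_left _ hK.le
    have h1a : 0 ≤ 1 / a := by positivity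
    have hmono : (∫ θ, ‖1 - (starRingEnd ℂ) (θ : ℂ) * v φ‖ ^ (-(a * 2)) ∂A)
        ≤ (1 - r) ^ (-ε) * Q φ := by
      simp only [hQ]
      rw [← integral_const_mul]
      have hkcont : Continuous (fun θ : T => ‖1 - (starRingEnd ℂ) (θ : ℂ) * v φ‖) :=
        (continuous_kernel (v φ)).norm
      have hkne : ∀ θ : T, 0 < ‖1 - (starRingEnd ℂ) (θ : ℂ) * v φ‖ := fun θ => kernel_pos θ hz
      have hc1 : Continuous (fun θ : T => ‖1 - (starRingEnd ℂ) (θ : ℂ) * v φ‖ ^ (-(a * 2))) :=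
        hkcont.rpow_const fun θ => Or.inl (hkne θ).ne'
      have hc2 : Continuous (fun θ : T => (1 - r) ^ (-ε) *
          ‖1 - (starRingEnd ℂ) (θ : ℂ) * v φ‖ ^ (-(2 : ℝ))) :=
        continuous_const.mul (hkcont.rpow_const fun θ => Or.inl (hkne θ).ne')
      have hint : ∀ g : T → ℝ, Continuous g → Integrable g A := by
        intro g hg
        obtain ⟨D, hD⟩ := (isCompact_univ (X := T)).exists_bound_of_continuousOn hg.continuousOn
        exact Integrable.of_bound hg.aestronglyMeasurable D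
          (Eventually.of_forall fun θ => hD θ (mem_univ _))
      apply integral_mono (hint _ hc1) (hint _ hc2)
      intro θ
      have hk := hkne θ
      simp only
      rw [hp, neg_add, Real.rpow_add hk, mul_comm]
      apply mul_le_mul_of_nonneg_right _ (by positivity)
      exact Real.rpow_le_rpow_of_nonpos h1r (hkpos θ φ) (by linarith)
    have := mul_le_mul_of_nonneg_left hmono h1a
    linarith
  -- integrate
  have hRint : IntervalIntegrable (fun φ => ‖c‖ ^ (-(2 : ℝ)) * K *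
      (1 + (1 / a) * ((1 - r) ^ (-ε) * Q φ))) volume 0 (2 * Real.pi) := by
    apply IntervalIntegrable.const_mul
    apply IntervalIntegrable.add intervalIntegrable_const
    exact (hQint.const_mul _).const_mul _
  have hmono := intervalIntegral.integral_mono_on (by positivity : (0 : ℝ) ≤ 2 * Real.pi)
    (hFcont.intervalIntegrable _ _) hRint (fun φ _ => hFbd φ)
  have hRval : (∫ φ in (0 : ℝ)..(2 * Real.pi), ‖c‖ ^ (-(2 : ℝ)) * K *
      (1 + (1 / a) * ((1 - r) ^ (-ε) * Q φ)))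
      = ‖c‖ ^ (-(2 : ℝ)) * K * (2 * Real.pi + (1 / a) * ((1 - r) ^ (-ε) *
        (A.real univ * (2 * Real.pi / (1 - r ^ 2))))) := by
    rw [intervalIntegral.integral_const_mul, intervalIntegral.integral_add intervalIntegrable_const
      ((hQint.const_mul _).const_mul _), intervalIntegral.integral_const,
      intervalIntegral.integral_const_mul, intervalIntegral.integral_const_mul]
    simp only [sub_zero, smul_eq_mul, mul_one]
    congr 4
  rw [hRval] at hmono
  -- periodicity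
  have hper : Function.Periodic (fun θ : ℝ => ‖deriv f (r * exp (θ * I))‖ ^ (-(2 : ℝ)))
      (2 * Real.pi) := by
    intro θ
    simp only
    congr 3
    rw [show ((θ + 2 * Real.pi : ℝ) : ℂ) * I = (θ : ℂ) * I + 2 * Real.pi * I by push_cast; ring,
      Complex.exp_add, Complex.exp_two_pi_mul_I, mul_one]
  have hshift := hper.intervalIntegral_add_eq (-Real.pi) 0
  have e2 : -Real.pi + 2 * Real.pi = Real.pi := by ring
  rw [e2, zero_add] at hshift
  have hFeq : (∫ θ in (0 : ℝ)..(2 * Real.pi), ‖deriv f (r * exp (θ * I))‖ ^ (-(2 : ℝ)))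
      = ∫ φ in (0 : ℝ)..(2 * Real.pi), F φ := by
    apply intervalIntegral.integral_congr
    intro φ _
    simp [hF, hv, circleMap]
  rw [hshift, hFeq]
  have hpi : 0 < Real.pi := Real.pi_pos
  have h1r2 : 0 < 1 - r ^ 2 := by nlinarith
  have hX : 0 < (1 - r) ^ (-1 - ε) := Real.rpow_pos_of_pos h1r _
  have hone : 1 ≤ (1 - r) ^ (-1 - ε) :=
    Real.one_le_rpow_of_pos_of_le_one_of_nonpos h1r (by linarith) (by linarith)
  have hfrac : (1 - r) ^ (-ε) * (1 / (1 - r ^ 2)) ≤ (1 - r) ^ (-1 - ε) := by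
    have e3 : (1 - r) ^ (-1 - ε) = (1 - r) ^ (-ε) * (1 - r) ^ (-(1 : ℝ)) := by
      rw [← Real.rpow_add h1r]; congr 1; ring
    rw [e3]
    apply mul_le_mul_of_nonneg_left _ (by positivity)
    rw [Real.rpow_neg_one, one_div]
    apply inv_anti₀ h1r
    nlinarith
  have hAnn : 0 ≤ A.real univ := measureReal_nonneg
  have h1a : 0 ≤ 1 / a := by positivity
  have hKc : 0 ≤ ‖c‖ ^ (-(2 : ℝ)) * K := by positivity
  calc (1 / (2 * Real.pi)) * ∫ φ in (0 : ℝ)..(2 * Real.pi), F φ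
      ≤ (1 / (2 * Real.pi)) * (‖c‖ ^ (-(2 : ℝ)) * K * (2 * Real.pi + (1 / a) * ((1 - r) ^ (-ε) *
        (A.real univ * (2 * Real.pi / (1 - r ^ 2)))))) :=
        mul_le_mul_of_nonneg_left hmono (by positivity)
    _ = ‖c‖ ^ (-(2 : ℝ)) * K * (1 + (1 / a) * A.real univ * ((1 - r) ^ (-ε) * (1 / (1 - r ^ 2)))) := by
        field_simp
    _ ≤ ‖c‖ ^ (-(2 : ℝ)) * K * ((1 - r) ^ (-1 - ε) + (1 / a) * A.real univ * (1 - r) ^ (-1 - ε)) := by
        apply mul_le_mul_of_nonneg_left _ hKc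
        have := mul_le_mul_of_nonneg_left hfrac (mul_nonneg h1a hAnn)
        linarith
    _ = C * (1 - r) ^ (-1 - ε) := by
        simp only [hC]; ring

end Main

end Vale.Agent.Lib.P142
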