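import Vale.Agent.Lib.P142.Kernel

open Complex Metric Set Filter Topology MeasureTheory

namespace Vale.Agent.Lib.P142

/-- existence of a circle element with prescribed conjugate -/
lemma exists_circle (θ : T) : ∃ a : Circle, (a : ℂ) = (starRingEnd ℂ) (θ : ℂ) := by
  have hmem : (starRingEnd ℂ) (θ : ℂ) ∈ Submonoid.unitSphere ℂ := by
    show (starRingEnd ℂ) (θ : ℂ) ∈ sphere (0 : ℂ) 1
    simp
  exact ⟨⟨_, hmem⟩, rfl⟩

/-- Uniform bound for the area integral of the singular kernel. -/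
lemma lintegral_kernel_ball {p : ℝ} (hp : p < 2) :
    ∃ C : ENNReal, C < ⊤ ∧ ∀ θ : T, (∫⁻ z in ball (0 : ℂ) 1,
      ENNReal.ofReal (‖1 - (starRingEnd ℂ) (θ : ℂ) * z‖ ^ (-p))) ≤ C := by
  -- local integrability of the power of the norm
  have hfin : p < Module.finrank ℝ ℂ := by
    rw [Complex.finrank_real_complex]; exact_mod_cast hp
  have hmeas : Measurable (fun y : ℂ => ‖y‖ ^ (-p)) := measurable_norm.pow_const _
  have hloc : LocallyIntegrable (fun y : ℂ => ‖y‖ ^ (-p)) volume := by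
    apply locallyIntegrable_of_norm_le_rpow (C := 1) (α := p)
      (by rw [Complex.finrank_real_complex]; norm_num) hfin
    · refine Eventually.of_forall fun x => ?_
      rw [one_mul, Real.norm_of_nonneg (by positivity)]
    · exact hmeas.aestronglyMeasurable
  have hint2 : IntegrableOn (fun y : ℂ => ‖y‖ ^ (-p)) (ball 0 2) :=
    (hloc.integrableOn_isCompact (isCompact_closedBall 0 2)).mono_set ball_subset_closedBall
  set C : ENNReal := ∫⁻ y in ball (0 : ℂ) 2, ENNReal.ofReal (‖y‖ ^ (-p)) with hC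
  have hClt : C < ⊤ := by
    have := hint2.hasFiniteIntegral
    have h2 : (∫⁻ y in ball (0 : ℂ) 2, ENNReal.ofReal (‖y‖ ^ (-p))) ≤
        ∫⁻ y in ball (0 : ℂ) 2, ‖‖y‖ ^ (-p)‖ₑ := by
      apply lintegral_mono
      intro y
      show ENNReal.ofReal (‖y‖ ^ (-p)) ≤ ‖‖y‖ ^ (-p)‖ₑ
      rw [Real.enorm_eq_ofReal (Real.rpow_nonneg (norm_nonneg y) _)]
    exact lt_of_le_of_lt h2 this
  refine ⟨C, hClt, fun θ => ?_⟩
  obtain ⟨a, ha⟩ := exists_circle θ
  -- the measure preserving affine map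
  have hmp1 : MeasurePreserving (rotation a) volume volume := (rotation a).measurePreserving
  have hme1 : MeasurableEmbedding (rotation a) := (rotation a).toHomeomorph.measurableEmbedding
  have hmp2 : MeasurePreserving (fun y : ℂ => 1 - y) volume volume :=
    volume.measurePreserving_sub_left 1
  have hme2 : MeasurableEmbedding (fun y : ℂ => 1 - y) := measurableEmbedding_subLeft 1
  have hmp : MeasurePreserving ((fun y : ℂ => 1 - y) ∘ rotation a) volume volume := hmp2.comp hmp1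
  have hme : MeasurableEmbedding ((fun y : ℂ => 1 - y) ∘ rotation a) := hme2.comp hme1
  have hpre : ((fun y : ℂ => 1 - y) ∘ rotation a) ⁻¹' (ball 1 1) = ball 0 1 := by
    ext z
    simp only [mem_preimage, Function.comp, mem_ball, dist_eq_norm, rotation_apply, sub_zero]
    have e : (1 : ℂ) - (a : ℂ) * z - 1 = -((a : ℂ) * z) := by ring
    rw [e, norm_neg, norm_mul, Circle.norm_coe, one_mul]
  have h1 := hmp.setLIntegral_comp_preimage_emb hme
    (fun y : ℂ => ENNReal.ofReal (‖y‖ ^ (-p))) (ball 1 1)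
  rw [hpre] at h1
  have h2 : (∫⁻ z in ball (0 : ℂ) 1, ENNReal.ofReal (‖1 - (starRingEnd ℂ) (θ : ℂ) * z‖ ^ (-p)))
      = ∫⁻ y in ball (1 : ℂ) 1, ENNReal.ofReal (‖y‖ ^ (-p)) := by
    rw [← h1]
    apply lintegral_congr
    intro z
    simp only [Function.comp, rotation_apply, ha]
  rw [h2]
  apply lintegral_mono_set
  intro y hy
  simp only [mem_ball, dist_eq_norm, sub_zero] at hy ⊢
  calc ‖y‖ = ‖(y - 1) + 1‖ := by ring_nf
    _ ≤ ‖y - 1‖ + ‖(1 : ℂ)‖ := norm_add_le _ _
    _ < 2 := by rw [norm_one]; linarith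

/-- Area integrability of the potential-type bound. -/
lemma lintegral_bound_ball (X : Measure T) [IsFiniteMeasure X] {a p : ℝ} (ha : 0 < a)
    (hp : p < 2) :
    (∫⁻ z in ball (0 : ℂ) 1, ENNReal.ofReal (1 + (1 / a) *
      ∫ θ, ‖1 - (starRingEnd ℂ) (θ : ℂ) * z‖ ^ (-p) ∂X)) < ⊤ := by
  obtain ⟨C, hClt, hC⟩ := lintegral_kernel_ball hp
  set k : ℂ → T → ENNReal := fun z θ =>
    ENNReal.ofReal (‖1 - (starRingEnd ℂ) (θ : ℂ) * z‖ ^ (-p)) with hk
  have hkm : Measurable (Function.uncurry k) := by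
    apply ENNReal.measurable_ofReal.comp
    apply Measurable.pow_const
    apply Measurable.norm
    apply Continuous.measurable
    fun_prop
  have hkm2 : Measurable fun z => ∫⁻ θ, k z θ ∂X := hkm.lintegral_prod_right'
  have hpt : ∀ z ∈ ball (0 : ℂ) 1, ENNReal.ofReal (1 + (1 / a) *
      ∫ θ, ‖1 - (starRingEnd ℂ) (θ : ℂ) * z‖ ^ (-p) ∂X) ≤
      1 + ENNReal.ofReal (1 / a) * ∫⁻ θ, k z θ ∂X := by
    intro z hz
    have hz' : ‖z‖ < 1 := by simpa using hz
    have hcont : Continuous (fun θ : T => ‖1 - (starRingEnd ℂ) (θ : ℂ) * z‖ ^ (-p)) := by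
      apply Continuous.rpow_const (continuous_kernel z).norm
      intro θ
      left
      exact (kernel_pos θ hz').ne'
    obtain ⟨B, hB⟩ := (isCompact_univ (X := T)).exists_bound_of_continuousOn hcont.continuousOn
    have hint : Integrable (fun θ : T => ‖1 - (starRingEnd ℂ) (θ : ℂ) * z‖ ^ (-p)) X :=
      Integrable.of_bound hcont.aestronglyMeasurable B
        (Eventually.of_forall fun θ => hB θ (mem_univ _))
    have h1 := ofReal_integral_eq_lintegral_ofReal hint
      (Eventually.of_forall fun θ => by positivity)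
    rw [ENNReal.ofReal_add (by norm_num) (by positivity), ENNReal.ofReal_one,
      ENNReal.ofReal_mul (by positivity), h1]
  calc (∫⁻ z in ball (0 : ℂ) 1, ENNReal.ofReal (1 + (1 / a) *
        ∫ θ, ‖1 - (starRingEnd ℂ) (θ : ℂ) * z‖ ^ (-p) ∂X))
      ≤ ∫⁻ z in ball (0 : ℂ) 1, (1 + ENNReal.ofReal (1 / a) * ∫⁻ θ, k z θ ∂X) :=
        setLIntegral_mono' measurableSet_ball hpt
    _ = (∫⁻ z in ball (0 : ℂ) 1, 1) + ENNReal.ofReal (1 / a) *
          ∫⁻ z in ball (0 : ℂ) 1, ∫⁻ θ, k z θ ∂X := by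
        rw [lintegral_add_left measurable_const,
          lintegral_const_mul _ hkm2]
    _ = volume (ball (0 : ℂ) 1) + ENNReal.ofReal (1 / a) *
          ∫⁻ θ, (∫⁻ z in ball (0 : ℂ) 1, k z θ) ∂X := by
        rw [setLIntegral_one, lintegral_lintegral_swap hkm.aemeasurable]
    _ ≤ volume (ball (0 : ℂ) 1) + ENNReal.ofReal (1 / a) * ∫⁻ _θ, C ∂X := by
        gcongr with θ
        exact hC θ
    _ < ⊤ := by
        rw [lintegral_const]
        apply ENNReal.add_lt_top.mpr
        constructor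
        · exact measure_ball_lt_top
        · apply ENNReal.mul_lt_top ENNReal.ofReal_lt_top
          exact ENNReal.mul_lt_top hClt (measure_lt_top _ _)

end Vale.Agent.Lib.P142
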